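import Vale.Agent.Lib.P015.LineWalk

/-!
# No bounded-step prime walk to infinity inside a strip of bounded width about any real line

The line is `A x + B y = C` with arbitrary real coefficients, `(A, B) ≠ (0, 0)`.
If the direction is rational the statement is reduced to the band theorem for lines through
two Gaussian integers.  Otherwise composite plugs `F X + γ` (with `F` a factorial and `γ`
ranging over a bounded window) are placed across the strip; their centres `F X` are found by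
Dirichlet approximation.
-/

namespace Vale.Agent.Lib.P015

/-- multiples of a positive step come within one step of every real, modulo the integers -/
lemma step_pos (d y : ℝ) (hd : 0 < d) (N : ℕ) :
    ∃ (i : ℕ) (b : ℤ), N ≤ i ∧ |(i : ℝ) * d + b - y| ≤ d := by
  obtain ⟨b, hb⟩ : ∃ b : ℤ, b = -⌈(N : ℝ) * d - y⌉ := ⟨_, rfl⟩
  have h1 : (N : ℝ) * d ≤ y - b := by
    rw [hb]; push_cast
    have := Int.le_ceil ((N : ℝ) * d - y)
    linarith
  have h0 : 0 ≤ (y - b) / d := div_nonneg (le_trans (by positivity) h1) hd.le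
  refine ⟨⌊(y - b) / d⌋₊, b, ?_, ?_⟩
  · apply Nat.le_floor
    rw [le_div_iff₀ hd]; exact h1
  · have h2 : (⌊(y - b) / d⌋₊ : ℝ) ≤ (y - b) / d := Nat.floor_le h0
    have h3 : (y - b) / d < ⌊(y - b) / d⌋₊ + 1 := Nat.lt_floor_add_one _
    rw [le_div_iff₀ hd] at h2
    rw [div_lt_iff₀ hd] at h3
    rw [abs_le]; constructor <;> linarith

lemma step_ne (d y : ℝ) (hd : d ≠ 0) (N : ℕ) :
    ∃ (i : ℕ) (b : ℤ), N ≤ i ∧ |(i : ℝ) * d + b - y| ≤ |d| := by
  rcases lt_or_gt_of_ne hd with h | h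
  · obtain ⟨i, b, hi, hb⟩ := step_pos (-d) (-y) (by linarith) N
    refine ⟨i, -b, hi, ?_⟩
    rw [abs_of_neg h]
    have e : (i : ℝ) * d + ((-b : ℤ) : ℝ) - y = -((i : ℝ) * (-d) + b - (-y)) := by
      push_cast; ring
    rw [e, abs_neg]; exact hb
  · obtain ⟨i, b, hi, hb⟩ := step_pos d y h N
    exact ⟨i, b, hi, by rw [abs_of_pos h]; exact hb⟩

/-- A one-sided Kronecker approximation: if `α` is irrational then `a α + b` comes within `ε`
of any real `y` with `a` of prescribed sign and arbitrarily large absolute value. -/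
lemma kron (α : ℝ) (hα : ∀ k j : ℤ, k ≠ 0 → (k : ℝ) * α ≠ j) (y ε : ℝ) (hε : 0 < ε) (N : ℕ)
    (s : ℤ) (hs : s = 1 ∨ s = -1) :
    ∃ a b : ℤ, (N : ℤ) ≤ s * a ∧ |(a : ℝ) * α + b - y| ≤ ε := by
  obtain ⟨n, hn⟩ : ∃ n : ℕ, n = ⌈1 / ε⌉₊ + 1 := ⟨_, rfl⟩
  have hn0 : 0 < n := by omega
  obtain ⟨j, k, hk0, _, hjk⟩ := Real.exists_int_int_abs_mul_sub_le α hn0
  have h1 : 1 / ((n : ℝ) + 1) ≤ ε := by
    have h2 : 1 / ε ≤ (n : ℝ) + 1 := by
      have := Nat.le_ceil (1 / ε)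
      rw [hn]; push_cast; linarith
    rw [div_le_iff₀ (by positivity)]
    rw [div_le_iff₀ hε] at h2
    linarith
  obtain ⟨d, hd⟩ : ∃ d : ℝ, d = (s : ℝ) * ((k : ℝ) * α - j) := ⟨_, rfl⟩
  have hsabs : |(s : ℝ)| = 1 := by
    rcases hs with rfl | rfl <;> simp
  have hd0 : d ≠ 0 := by
    rw [hd]
    apply mul_ne_zero
    · rcases hs with rfl | rfl <;> norm_num
    · exact sub_ne_zero.mpr (hα k j hk0.ne')
  have hdε : |d| ≤ ε := by
    rw [hd, abs_mul, hsabs, one_mul]; linarith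
  obtain ⟨i, b, hi, hib⟩ := step_ne d y hd0 N
  refine ⟨s * i * k, -(s * i * j) + b, ?_, ?_⟩
  · have hss : s * (s * i * k) = (i : ℤ) * k := by
      rcases hs with rfl | rfl <;> ring
    rw [hss]
    have hi' : (N : ℤ) ≤ (i : ℤ) := by exact_mod_cast hi
    have hi0 : (0 : ℤ) ≤ (i : ℤ) := Int.natCast_nonneg i
    nlinarith
  · have e : ((s * i * k : ℤ) : ℝ) * α + ((-(s * i * j) + b : ℤ) : ℝ) - y
        = (i : ℝ) * d + b - y := by
      rw [hd]; push_cast; ring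
    rw [e]; linarith

/-- discrete intermediate value: an integer sequence with steps at most `K` passes within `K`
of every level between two of its values -/
lemma crossing_up (x : ℕ → ℤ) (K : ℤ) (hstep : ∀ n, |x (n + 1) - x n| ≤ K) (c : ℤ)
    (h0 : x 0 ≤ c) (n : ℕ) (hn : c ≤ x n) : ∃ j, |x j - c| ≤ K := by
  classical
  have hex : ∃ j, c ≤ x j := ⟨n, hn⟩
  obtain ⟨j, hj⟩ : ∃ j, j = Nat.find hex := ⟨_, rfl⟩
  have hj1 : c ≤ x j := by rw [hj]; exact Nat.find_spec hex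
  have hK : 0 ≤ K := le_trans (abs_nonneg _) (hstep 0)
  rcases Nat.eq_zero_or_pos j with h | h
  · refine ⟨0, ?_⟩
    rw [h] at hj1
    have e : x 0 - c = 0 := by linarith
    rw [e, abs_zero]; exact hK
  · obtain ⟨j', rfl⟩ := Nat.exists_eq_succ_of_ne_zero h.ne'
    have hj' : x j' < c := by
      have := Nat.find_min hex (m := j') (by rw [← hj]; exact Nat.lt_succ_self j')
      exact not_le.mp this
    have h2 := abs_le.mp (hstep j')
    refine ⟨j' + 1, ?_⟩
    rw [abs_le]; constructor <;> linarith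

lemma crossing_down (x : ℕ → ℤ) (K : ℤ) (hstep : ∀ n, |x (n + 1) - x n| ≤ K) (c : ℤ)
    (h0 : c ≤ x 0) (n : ℕ) (hn : x n ≤ c) : ∃ j, |x j - c| ≤ K := by
  have hstep' : ∀ n, |(fun n => -x n) (n + 1) - (fun n => -x n) n| ≤ K := by
    intro n
    show |-x (n + 1) - -x n| ≤ K
    have e : -x (n + 1) - -x n = -(x (n + 1) - x n) := by ring
    rw [e, abs_neg]; exact hstep n
  obtain ⟨j, hj⟩ := crossing_up (fun n => -x n) K hstep' (-c)
    (by show -x 0 ≤ -c; linarith) n (by show -c ≤ -x n; linarith)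
  refine ⟨j, ?_⟩
  have hj' : |-x j - -c| ≤ K := hj
  have e : x j - c = -(-x j - -c) := by ring
  rw [e, abs_neg]; exact hj'

/-- Every Gaussian integer of the strip `|A x + B y - C| ≤ W` whose real part is within `K` of
that of the centre `n! (a + b i)` is composite, provided the centre lies just outside the strip. -/
lemma strip_kill (A B C W : ℝ) (hB : B ≠ 0) (K n : ℕ)
    (hn : (K : ℝ)^2 + ((2 * W + 4 * (|A| + |B|) + |A| * K) / |B|)^2 ≤ n)
    (a b : ℤ) (ha : a ≠ 0)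
    (h1 : W + 3 * (|A| + |B|) ≤ (n.factorial : ℝ) * (A * a + B * b) - C)
    (h2 : (n.factorial : ℝ) * (A * a + B * b) - C ≤ W + 4 * (|A| + |B|))
    (z : GaussianInt) (hz : |A * (z.re : ℝ) + B * (z.im : ℝ) - C| ≤ W)
    (hre : |z.re - (n.factorial : ℤ) * a| ≤ K) : ¬ Irreducible z := by
  have hBpos : 0 < |B| := abs_pos.mpr hB
  have hA0 : 0 ≤ |A| := abs_nonneg A
  have hS : 0 < |A| + |B| := by linarith
  obtain ⟨X, hX⟩ : ∃ X : GaussianInt, X = ⟨a, b⟩ := ⟨_, rfl⟩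
  have hX0 : X ≠ 0 := by
    intro h
    have h3 : X.re = 0 := by rw [h]; rfl
    rw [hX] at h3
    exact ha h3
  obtain ⟨γ, hγ⟩ : ∃ γ : GaussianInt, γ = z - ((n.factorial : ℤ) : GaussianInt) * X := ⟨_, rfl⟩
  obtain ⟨u, hu⟩ : ∃ u : ℤ, u = z.re - (n.factorial : ℤ) * a := ⟨_, rfl⟩
  obtain ⟨w, hw⟩ : ∃ w : ℤ, w = z.im - (n.factorial : ℤ) * b := ⟨_, rfl⟩
  have hγre : γ.re = u := by
    rw [hγ, hu, hX, Zsqrtd.re_sub, Zsqrtd.re_mul, Zsqrtd.re_intCast, Zsqrtd.im_intCast]; ring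
  have hγim : γ.im = w := by
    rw [hγ, hw, hX, Zsqrtd.im_sub, Zsqrtd.im_mul, Zsqrtd.re_intCast, Zsqrtd.im_intCast]; ring
  have hzz := abs_le.mp hz
  have hl1 : A * (u : ℝ) + B * (w : ℝ) ≤ -(3 * (|A| + |B|)) := by
    rw [hu, hw]; push_cast
    linarith
  have hl2 : -(2 * W + 4 * (|A| + |B|)) ≤ A * (u : ℝ) + B * (w : ℝ) := by
    rw [hu, hw]; push_cast
    linarith
  have huK : |u| ≤ (K : ℤ) := by rw [hu]; exact hre
  have huK' : |(u : ℝ)| ≤ (K : ℝ) := by exact_mod_cast huK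
  -- lower bound on the norm
  have hγ9 : 9 ≤ γ.norm := by
    rw [gnorm_eq, hγre, hγim]
    by_contra hcon
    have hlt : u^2 + w^2 ≤ 8 := by omega
    have hu2 : |u| ≤ 2 := by
      rw [abs_le]; constructor <;> nlinarith [sq_nonneg w, sq_nonneg u]
    have hw2 : |w| ≤ 2 := by
      rw [abs_le]; constructor <;> nlinarith [sq_nonneg w, sq_nonneg u]
    have hu2' : |(u : ℝ)| ≤ 2 := by exact_mod_cast hu2
    have hw2' : |(w : ℝ)| ≤ 2 := by exact_mod_cast hw2
    have h3 : |A * (u : ℝ) + B * (w : ℝ)| ≤ 2 * (|A| + |B|) := by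
      refine le_trans (abs_add_le _ _) ?_
      rw [abs_mul, abs_mul]
      nlinarith [abs_nonneg A, abs_nonneg B]
    have h4 := (abs_le.mp h3).1
    linarith
  -- upper bound on the norm
  have hγn : γ.norm ≤ (n : ℤ) := by
    rw [gnorm_eq, hγre, hγim]
    have hBw : |B| * |(w : ℝ)| ≤ 2 * W + 4 * (|A| + |B|) + |A| * K := by
      have e : B * (w : ℝ) = (A * (u : ℝ) + B * (w : ℝ)) - A * u := by ring
      rw [← abs_mul, e]
      refine le_trans (abs_sub _ _) ?_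
      have h5 : |A * (u : ℝ) + B * (w : ℝ)| ≤ 2 * W + 4 * (|A| + |B|) := by
        rw [abs_le]; constructor <;> linarith
      have h6 : |A * (u : ℝ)| ≤ |A| * K := by
        rw [abs_mul]
        exact mul_le_mul_of_nonneg_left huK' hA0
      linarith
    have hw' : |(w : ℝ)| ≤ (2 * W + 4 * (|A| + |B|) + |A| * K) / |B| := by
      rw [le_div_iff₀ hBpos]; linarith
    have hw2 : (w : ℝ)^2 ≤ ((2 * W + 4 * (|A| + |B|) + |A| * K) / |B|)^2 := by
      rw [← sq_abs (w : ℝ)]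
      exact pow_le_pow_left₀ (abs_nonneg _) hw' 2
    have hu2 : (u : ℝ)^2 ≤ (K : ℝ)^2 := by
      rw [← sq_abs (u : ℝ)]
      exact pow_le_pow_left₀ (abs_nonneg _) huK' 2
    have h7 : ((u^2 + w^2 : ℤ) : ℝ) ≤ ((n : ℤ) : ℝ) := by
      push_cast; linarith
    exact_mod_cast h7
  have hdvd : γ.norm ∣ ((n.factorial : ℕ) : ℤ) := by
    have h0 : 0 ≤ γ.norm := gnorm_nonneg γ
    obtain ⟨t, ht⟩ : ∃ t : ℕ, (t : ℤ) = γ.norm := ⟨γ.norm.toNat, Int.toNat_of_nonneg h0⟩
    rw [← ht]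
    have ht1 : 0 < t := by
      have h8 : (9 : ℤ) ≤ (t : ℤ) := by rw [ht]; exact hγ9
      omega
    have ht2 : t ≤ n := by
      have h8 : (t : ℤ) ≤ (n : ℤ) := by rw [ht]; exact hγn
      exact_mod_cast h8
    exact_mod_cast Nat.dvd_factorial ht1 ht2
  have hFpos : 0 < ((n.factorial : ℕ) : ℤ) := by exact_mod_cast Nat.factorial_pos n
  have key := not_irreducible_of_dvd γ X _ hγ9 hdvd hFpos hX0
  have e : (((n.factorial : ℕ) : ℤ) : GaussianInt) * X + γ = z := by rw [hγ]; ring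
  rwa [e] at key

/-- an injective sequence inside a strip not parallel to the imaginary axis has unbounded
real parts -/
lemma exists_abs_re_ge (A B C W : ℝ) (hB : B ≠ 0) (z : ℕ → GaussianInt)
    (hinj : Function.Injective z)
    (hstrip : ∀ n, |A * ((z n).re : ℝ) + B * ((z n).im : ℝ) - C| ≤ W) (M : ℤ) :
    ∃ n, M ≤ |(z n).re| := by
  by_contra hcon
  simp only [not_exists, not_le] at hcon
  have hBpos : 0 < |B| := abs_pos.mpr hB
  obtain ⟨Yb, hYb⟩ : ∃ Yb : ℝ, Yb = (W + |A| * |(M : ℝ)| + |C|) / |B| := ⟨_, rfl⟩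
  obtain ⟨Bd, hBd⟩ : ∃ Bd : ℤ, Bd = max M (⌈Yb⌉ + 1) := ⟨_, rfl⟩
  obtain ⟨n, hn⟩ := exists_max_abs_ge hinj Bd
  have hx : |(z n).re| < M := hcon n
  have hx' : |((z n).re : ℝ)| ≤ |(M : ℝ)| := by
    have h1 : ((|(z n).re| : ℤ) : ℝ) ≤ ((M : ℤ) : ℝ) := by exact_mod_cast hx.le
    rw [Int.cast_abs] at h1
    exact le_trans h1 (le_abs_self _)
  have hy : |((z n).im : ℝ)| ≤ Yb := by
    rw [hYb, le_div_iff₀ hBpos, ← abs_mul]
    have e : ((z n).im : ℝ) * B
        = (A * ((z n).re : ℝ) + B * ((z n).im : ℝ) - C) - A * ((z n).re : ℝ) + C := by ring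
    rw [e]
    have h1 := abs_add_le ((A * ((z n).re : ℝ) + B * ((z n).im : ℝ) - C) - A * ((z n).re : ℝ)) C
    have h2 := abs_sub (A * ((z n).re : ℝ) + B * ((z n).im : ℝ) - C) (A * ((z n).re : ℝ))
    have h3 : |A * ((z n).re : ℝ)| ≤ |A| * |(M : ℝ)| := by
      rw [abs_mul]; exact mul_le_mul_of_nonneg_left hx' (abs_nonneg A)
    linarith [hstrip n]
  have hy' : |(z n).im| < ⌈Yb⌉ + 1 := by
    have h1 : ((|(z n).im| : ℤ) : ℝ) ≤ Yb := by rw [Int.cast_abs]; exact hy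
    have h2 : Yb ≤ (⌈Yb⌉ : ℝ) := Int.le_ceil Yb
    have h3 : ((|(z n).im| : ℤ) : ℝ) ≤ ((⌈Yb⌉ : ℤ) : ℝ) := le_trans h1 h2
    have h4 : |(z n).im| ≤ ⌈Yb⌉ := by exact_mod_cast h3
    linarith
  have h5 : max |(z n).re| |(z n).im| < Bd := by
    rw [hBd]
    apply max_lt
    · exact lt_of_lt_of_le hx (le_max_left _ _)
    · exact lt_of_lt_of_le hy' (le_max_right _ _)
  linarith

/-- position of the centre relative to the strip -/
lemma centre_bound (A B C W S F a b : ℝ) (hB : B ≠ 0) (hF : 0 < F)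
    (h : |a * (A / B) + b - (C + W + 7 / 2 * S) / (F * B)| ≤ (S / 2) / (F * |B|)) :
    W + 3 * S ≤ F * (A * a + B * b) - C ∧ F * (A * a + B * b) - C ≤ W + 4 * S := by
  have hBpos : 0 < |B| := abs_pos.mpr hB
  have hFB : 0 < F * |B| := mul_pos hF hBpos
  have hF0 : F ≠ 0 := hF.ne'
  have e : F * (A * a + B * b) - (C + W + 7 / 2 * S)
      = F * B * (a * (A / B) + b - (C + W + 7 / 2 * S) / (F * B)) := by
    field_simp
  have h1 : |F * (A * a + B * b) - (C + W + 7 / 2 * S)| ≤ S / 2 := by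
    rw [e, abs_mul, abs_mul, abs_of_pos hF]
    rw [le_div_iff₀ hFB] at h
    linarith
  have h2 := abs_le.mp h1
  constructor <;> linarith

/-- the band inequality from a bounded across-coordinate and a large along-coordinate -/
lemma band_of_bounds (D s W0 c a E : ℝ) (hD : 1 ≤ D) (hs : 0 ≤ s) (hc0 : 0 ≤ c) (hc : c ≤ W0)
    (hE : E = 80 * D * s * W0 * Real.log (W0 + 2)) (ha : Real.exp E ≤ a + 2) :
    80 * D * s * c * Real.log (c + 2) ≤ Real.log (a + 2) := by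
  have h3 : Real.log (c + 2) ≤ Real.log (W0 + 2) := Real.log_le_log (by linarith) (by linarith)
  have h4 : 0 ≤ Real.log (c + 2) := Real.log_nonneg (by linarith)
  have h80 : 0 ≤ 80 * D * s := mul_nonneg (mul_nonneg (by norm_num) (by linarith)) hs
  have h5 : 80 * D * s * c * Real.log (c + 2) ≤ E := by
    rw [hE]
    exact mul_le_mul (mul_le_mul_of_nonneg_left hc h80) h3 h4
      (mul_nonneg h80 (le_trans hc0 hc))
  have h7 : E ≤ Real.log (a + 2) := by
    rw [Real.le_log_iff_exp_le (lt_of_lt_of_le (Real.exp_pos E) ha)]; exact ha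
  linarith

/-- Irrational direction: no walk inside the strip. -/
theorem no_walk_irrational (A B C W D : ℝ) (hB : B ≠ 0)
    (hirrat : ∀ k j : ℤ, k ≠ 0 → (k : ℝ) * (A / B) ≠ j)
    (z : ℕ → GaussianInt) (hinj : Function.Injective z) (hirr : ∀ n, Irreducible (z n))
    (hstep : ∀ n, ‖GaussianInt.toComplex (z (n + 1)) - GaussianInt.toComplex (z n)‖ ≤ D)
    (hstrip : ∀ n, |A * ((z n).re : ℝ) + B * ((z n).im : ℝ) - C| ≤ W) : False := by
  obtain ⟨K, hK⟩ : ∃ K : ℕ, K = ⌈D⌉₊ := ⟨_, rfl⟩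
  have hKD : D ≤ (K : ℝ) := by rw [hK]; exact Nat.le_ceil D
  have hxstep : ∀ n, |(z (n + 1)).re - (z n).re| ≤ (K : ℤ) :=
    fun n => abs_re_sub_le hKD (hstep n)
  have hBpos : 0 < |B| := abs_pos.mpr hB
  have hSpos : 0 < |A| + |B| := by
    have := abs_nonneg A
    linarith
  obtain ⟨n, hn⟩ : ∃ n : ℕ,
      n = ⌈(K : ℝ)^2 + ((2 * W + 4 * (|A| + |B|) + |A| * K) / |B|)^2⌉₊ := ⟨_, rfl⟩
  have hn' : (K : ℝ)^2 + ((2 * W + 4 * (|A| + |B|) + |A| * K) / |B|)^2 ≤ n := by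
    rw [hn]; exact Nat.le_ceil _
  have hFpos : 0 < n.factorial := Nat.factorial_pos n
  have hFpos' : (0 : ℝ) < (n.factorial : ℝ) := by exact_mod_cast hFpos
  have hF1 : (1 : ℤ) ≤ (n.factorial : ℤ) := by exact_mod_cast hFpos
  have hε : 0 < ((|A| + |B|) / 2) / ((n.factorial : ℝ) * |B|) := by positivity
  obtain ⟨N, hN⟩ : ∃ N : ℕ, (N : ℤ) = |(z 0).re| + 1 :=
    ⟨(|(z 0).re| + 1).toNat, Int.toNat_of_nonneg (by positivity)⟩
  obtain ⟨a1, b1, ha1, hab1⟩ := kron (A / B) hirrat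
    ((C + W + 7 / 2 * (|A| + |B|)) / ((n.factorial : ℝ) * B)) _ hε N 1 (Or.inl rfl)
  obtain ⟨a2, b2, ha2, hab2⟩ := kron (A / B) hirrat
    ((C + W + 7 / 2 * (|A| + |B|)) / ((n.factorial : ℝ) * B)) _ hε N (-1) (Or.inr rfl)
  have hc1 := centre_bound A B C W (|A| + |B|) (n.factorial : ℝ) a1 b1 hB hFpos' hab1
  have hc2 := centre_bound A B C W (|A| + |B|) (n.factorial : ℝ) a2 b2 hB hFpos' hab2
  have ha1' : (N : ℤ) ≤ a1 := by linarith
  have ha2' : a2 ≤ -(N : ℤ) := by linarith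
  have hx0a := abs_nonneg (z 0).re
  have hx0 : |(z 0).re| < (N : ℤ) := by rw [hN]; linarith
  have hx0' := abs_lt.mp hx0
  have hNpos : (1 : ℤ) ≤ (N : ℤ) := by rw [hN]; linarith
  have hFa1 : a1 ≤ (n.factorial : ℤ) * a1 := by nlinarith
  have hFa2 : (n.factorial : ℤ) * a2 ≤ a2 := by nlinarith
  obtain ⟨n0, hn0⟩ := exists_abs_re_ge A B C W hB z hinj hstrip
    ((n.factorial : ℤ) * a1 + (-((n.factorial : ℤ) * a2)) + 1)
  have hcross : ∃ j, |(z j).re - (n.factorial : ℤ) * a1| ≤ (K : ℤ)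
      ∨ |(z j).re - (n.factorial : ℤ) * a2| ≤ (K : ℤ) := by
    rcases le_or_gt 0 (z n0).re with h | h
    · rw [abs_of_nonneg h] at hn0
      obtain ⟨j, hj⟩ := crossing_up (fun n => (z n).re) K hxstep ((n.factorial : ℤ) * a1)
        (by show (z 0).re ≤ _; linarith) n0 (by show _ ≤ (z n0).re; linarith)
      exact ⟨j, Or.inl hj⟩
    · rw [abs_of_neg h] at hn0
      obtain ⟨j, hj⟩ := crossing_down (fun n => (z n).re) K hxstep ((n.factorial : ℤ) * a2)
        (by show _ ≤ (z 0).re; linarith) n0 (by show (z n0).re ≤ _; linarith)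
      exact ⟨j, Or.inr hj⟩
  obtain ⟨j, hj | hj⟩ := hcross
  · exact strip_kill A B C W hB K n hn' a1 b1 (by omega) hc1.1 hc1.2 (z j) (hstrip j) hj (hirr j)
  · exact strip_kill A B C W hB K n hn' a2 b2 (by omega) hc2.1 hc2.2 (z j) (hstrip j) hj (hirr j)

/-- Rational direction: reduction to the band theorem for lines through two Gaussian
integers. -/
theorem no_walk_rational (A B C W D : ℝ) (hAB : A ≠ 0 ∨ B ≠ 0) (p q : ℤ) (hpq : p ≠ 0 ∨ q ≠ 0)
    (h : A * q = B * p)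
    (z : ℕ → GaussianInt) (hinj : Function.Injective z) (hirr : ∀ n, Irreducible (z n))
    (hstep : ∀ n, ‖GaussianInt.toComplex (z (n + 1)) - GaussianInt.toComplex (z n)‖ ≤ D)
    (hstrip : ∀ n, |A * ((z n).re : ℝ) + B * ((z n).im : ℝ) - C| ≤ W) : False := by
  have hD : 1 ≤ D := by
    have hne : z (0 + 1) ≠ z 0 := fun h => by
      have := hinj h
      omega
    exact le_trans (one_le_dist_of_ne hne) (hstep 0)
  -- the scale
  obtain ⟨lam, hlam0, hA, hBq⟩ : ∃ lam : ℝ, lam ≠ 0 ∧ A = lam * p ∧ B = lam * q := by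
    by_cases hp : p = 0
    · have hq : q ≠ 0 := by
        rcases hpq with h1 | h1
        · exact absurd hp h1
        · exact h1
      have hq' : (q : ℝ) ≠ 0 := by exact_mod_cast hq
      have hA0 : A = 0 := by
        rw [hp, Int.cast_zero, mul_zero] at h
        rcases mul_eq_zero.mp h with h1 | h1
        · exact h1
        · exact absurd h1 hq'
      have hB0 : B ≠ 0 := by
        rcases hAB with h1 | h1
        · exact absurd hA0 h1
        · exact h1
      refine ⟨B / q, div_ne_zero hB0 hq', ?_, ?_⟩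
      · rw [hA0, hp, Int.cast_zero, mul_zero]
      · rw [div_mul_cancel₀ B hq']
    · have hp' : (p : ℝ) ≠ 0 := by exact_mod_cast hp
      have hA0 : A ≠ 0 := by
        intro hA0
        rw [hA0, zero_mul] at h
        rcases mul_eq_zero.mp h.symm with h1 | h1
        · rcases hAB with h2 | h2
          · exact h2 hA0
          · exact h2 h1
        · exact hp' h1
      refine ⟨A / p, div_ne_zero hA0 hp', ?_, ?_⟩
      · rw [div_mul_cancel₀ A hp']
      · rw [div_mul_eq_mul_div, h, mul_div_assoc, div_self hp', mul_one]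
  obtain ⟨v, hv⟩ : ∃ v : GaussianInt, v = ⟨q, -p⟩ := ⟨_, rfl⟩
  have hvre : v.re = q := by rw [hv]
  have hvim : v.im = -p := by rw [hv]
  have hv0 : v ≠ 0 := by
    intro h0
    have h1 : v.re = 0 := by rw [h0]; rfl
    have h2 : v.im = 0 := by rw [h0]; rfl
    rw [hvre] at h1
    rw [hvim] at h2
    rcases hpq with h3 | h3
    · exact h3 (by omega)
    · exact h3 h1
  have hacross : ∀ n, ((z n - 0) * star v).im = p * (z n).re + q * (z n).im := by
    intro n
    rw [across_eq, hvre, hvim, Zsqrtd.im_zero, Zsqrtd.re_zero]; ring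
  have hlampos : 0 < |lam| := abs_pos.mpr hlam0
  obtain ⟨W0, hW0⟩ : ∃ W0 : ℝ, W0 = (W + |C|) / |lam| := ⟨_, rfl⟩
  have hcbound : ∀ n, ((|((z n - 0) * star v).im| : ℤ) : ℝ) ≤ W0 := by
    intro n
    rw [hacross, Int.cast_abs, hW0, le_div_iff₀ hlampos, ← abs_mul]
    have e : ((p * (z n).re + q * (z n).im : ℤ) : ℝ) * lam
        = (A * ((z n).re : ℝ) + B * ((z n).im : ℝ) - C) + C := by
      rw [hA, hBq]; push_cast; ring
    rw [e]
    have h1 := abs_add_le (A * ((z n).re : ℝ) + B * ((z n).im : ℝ) - C) C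
    linarith [hstrip n]
  have hcnn : ∀ n, (0 : ℝ) ≤ ((|((z n - 0) * star v).im| : ℤ) : ℝ) := by
    intro n
    exact_mod_cast abs_nonneg _
  have hs0 : (0 : ℝ) ≤ ((|v.re| + |v.im| : ℤ) : ℝ) := by
    exact_mod_cast add_nonneg (abs_nonneg v.re) (abs_nonneg v.im)
  obtain ⟨E, hE⟩ : ∃ E : ℝ,
      E = 80 * D * ((|v.re| + |v.im| : ℤ) : ℝ) * W0 * Real.log (W0 + 2) := ⟨_, rfl⟩
  obtain ⟨Bd, hBd⟩ : ∃ Bd : ℤ, Bd = ⌈max (Real.exp E) W0⌉ := ⟨_, rfl⟩
  have hBd1 : Real.exp E ≤ (Bd : ℝ) := by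
    rw [hBd]; exact le_trans (le_max_left _ _) (Int.le_ceil _)
  have hBd2 : W0 ≤ (Bd : ℝ) := by
    rw [hBd]; exact le_trans (le_max_right _ _) (Int.le_ceil _)
  -- finitely many indices with small along-coordinate
  have hfin : {n : ℕ | |((z n - 0) * star v).re| ≤ Bd}.Finite := by
    have h1 := (finite_along_across_le 0 v hv0 Bd).preimage (hinj.injOn)
    apply h1.subset
    intro n hn
    refine ⟨hn, ?_⟩
    have h2 : ((|((z n - 0) * star v).im| : ℤ) : ℝ) ≤ (Bd : ℝ) := le_trans (hcbound n) hBd2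
    exact_mod_cast h2
  obtain ⟨N0, hN0⟩ := hfin.bddAbove
  have hlarge : ∀ n, N0 < n → Bd < |((z n - 0) * star v).re| := by
    intro n hn
    by_contra hcon
    have h1 : n ≤ N0 := hN0 (not_lt.mp hcon)
    omega
  apply no_walk_in_line_band 0 v hv0 D hD (fun n => z (n + (N0 + 1)))
  · intro a b hab
    have h1 : a + (N0 + 1) = b + (N0 + 1) := hinj hab
    omega
  · intro n; exact hirr _
  · intro n
    have h1 := hstep (n + (N0 + 1))
    have e : n + 1 + (N0 + 1) = n + (N0 + 1) + 1 := by ring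
    show ‖GaussianInt.toComplex (z (n + 1 + (N0 + 1)))
      - GaussianInt.toComplex (z (n + (N0 + 1)))‖ ≤ D
    rw [e]; exact h1
  · intro n
    show 80 * D * ((|v.re| + |v.im| : ℤ) : ℝ)
        * ((|((z (n + (N0 + 1)) - 0) * star v).im| : ℤ) : ℝ)
        * Real.log (((|((z (n + (N0 + 1)) - 0) * star v).im| : ℤ) : ℝ) + 2)
        ≤ Real.log (((|((z (n + (N0 + 1)) - 0) * star v).re| : ℤ) : ℝ) + 2)
    have h2 := hlarge (n + (N0 + 1)) (by omega)
    have h6 : Real.exp E ≤ ((|((z (n + (N0 + 1)) - 0) * star v).re| : ℤ) : ℝ) + 2 := by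
      have h3 : ((Bd : ℤ) : ℝ) < ((|((z (n + (N0 + 1)) - 0) * star v).re| : ℤ) : ℝ) := by
        exact_mod_cast h2
      linarith
    exact band_of_bounds D _ W0 _ _ E hD hs0 (hcnn _) (hcbound _) hE h6

/-- No infinite walk of distinct Gaussian primes with bounded steps stays inside a strip of
bounded width about a real line `A x + B y = C`. -/
theorem no_walk_in_strip (A B C W D : ℝ) (hAB : A ≠ 0 ∨ B ≠ 0)
    (z : ℕ → GaussianInt) (hinj : Function.Injective z) (hirr : ∀ n, Irreducible (z n))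
    (hstep : ∀ n, ‖GaussianInt.toComplex (z (n + 1)) - GaussianInt.toComplex (z n)‖ ≤ D)
    (hstrip : ∀ n, |A * ((z n).re : ℝ) + B * ((z n).im : ℝ) - C| ≤ W) : False := by
  by_cases hrat : ∃ p q : ℤ, (p ≠ 0 ∨ q ≠ 0) ∧ A * q = B * p
  · obtain ⟨p, q, hpq, h⟩ := hrat
    exact no_walk_rational A B C W D hAB p q hpq h z hinj hirr hstep hstrip
  · have hB : B ≠ 0 := by
      intro hB0
      apply hrat
      refine ⟨1, 0, Or.inl one_ne_zero, ?_⟩
      rw [hB0, Int.cast_zero, mul_zero, zero_mul]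
    apply no_walk_irrational A B C W D hB ?_ z hinj hirr hstep hstrip
    intro k j hk hkj
    apply hrat
    refine ⟨j, k, Or.inr hk, ?_⟩
    have e : (k : ℝ) * (A / B) * B = (k : ℝ) * A := by
      rw [mul_assoc, div_mul_cancel₀ A hB]
    rw [hkj] at e
    linarith

end Vale.Agent.Lib.P015
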