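import Mathlib

/-!
# Greedy choice of residues: an averaging lemma
-/

namespace Vale.Agent.Lib.P015

open Finset

open Classical in
/-- indicator (with values `0`, `1`) that the residue `r` modulo `p` does not remove `x` -/
noncomputable def surv {α : Type*} (K : ℕ → ℕ → α → Prop) (p r : ℕ) (x : α) : ℝ :=
  if K p r x then 0 else 1

lemma surv_nonneg {α : Type*} (K : ℕ → ℕ → α → Prop) (p r : ℕ) (x : α) : 0 ≤ surv K p r x := by
  unfold surv; split_ifs <;> norm_num

lemma surv_of {α : Type*} {K : ℕ → ℕ → α → Prop} {p r : ℕ} {x : α} (h : K p r x) :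
    surv K p r x = 0 := by
  unfold surv; rw [if_pos h]

lemma surv_of_not {α : Type*} {K : ℕ → ℕ → α → Prop} {p r : ℕ} {x : α} (h : ¬ K p r x) :
    surv K p r x = 1 := by
  unfold surv; rw [if_neg h]

open Classical in
lemma sum_surv {α : Type*} (K : ℕ → ℕ → α → Prop) (q : ℕ) (x : α) :
    ∑ r ∈ range q, surv K q r x = (q : ℝ) - (((range q).filter (fun r => K q r x)).card : ℝ) := by
  have h1 : ∀ r ∈ range q, surv K q r x = 1 - (if K q r x then (1 : ℝ) else 0) := by
    intro r _
    unfold surv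
    split_ifs <;> norm_num
  rw [Finset.sum_congr rfl h1, Finset.sum_sub_distrib, Finset.sum_boole]
  simp

open Classical in
/-- one averaging step -/
lemma avg_one {α : Type*} (K : ℕ → ℕ → α → Prop) (q : ℕ) (hq : 0 < q) (X : Finset α)
    (V : α → ℝ) (hV : ∀ x ∈ X, 0 ≤ V x) (κ : α → ℝ)
    (hκ : ∀ x ∈ X, κ x ≤ (((range q).filter (fun r => K q r x)).card : ℝ)) :
    ∃ r0, ∑ x ∈ X, V x * surv K q r0 x ≤ ∑ x ∈ X, V x * (1 - κ x / (q : ℝ)) := by
  have hqR : (0 : ℝ) < (q : ℝ) := by exact_mod_cast hq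
  have hsum : ∑ r ∈ range q, ∑ x ∈ X, V x * surv K q r x
      ≤ ∑ _r ∈ range q, ∑ x ∈ X, V x * (1 - κ x / (q : ℝ)) := by
    rw [Finset.sum_comm, Finset.sum_const, Finset.card_range, nsmul_eq_mul, Finset.mul_sum]
    apply Finset.sum_le_sum
    intro x hx
    rw [← Finset.mul_sum, sum_surv]
    have h1 : (q : ℝ) * (V x * (1 - κ x / (q : ℝ))) = V x * ((q : ℝ) - κ x) := by
      field_simp
    rw [h1]
    apply mul_le_mul_of_nonneg_left _ (hV x hx)
    linarith [hκ x hx]
  obtain ⟨r0, _, hr0⟩ := Finset.exists_le_of_sum_le (Finset.nonempty_range_iff.mpr hq.ne') hsum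
  exact ⟨r0, hr0⟩

open Classical in
/-- Greedy residues: for any nonnegative weights there are residues such that the weighted number
of survivors is at most the expected one. -/
theorem exists_residues {α : Type*} (K : ℕ → ℕ → α → Prop) (κ : ℕ → α → ℝ) (X : Finset α)
    (P : Finset ℕ) (hP : ∀ p ∈ P, 0 < p)
    (hκ1 : ∀ p ∈ P, ∀ x ∈ X, κ p x ≤ (p : ℝ))
    (hκ : ∀ p ∈ P, ∀ x ∈ X, κ p x ≤ (((range p).filter (fun r => K p r x)).card : ℝ))
    (W : α → ℝ) (hW : ∀ x ∈ X, 0 ≤ W x) :
    ∃ r : ℕ → ℕ, ∑ x ∈ X, W x * ∏ p ∈ P, surv K p (r p) x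
      ≤ ∑ x ∈ X, W x * ∏ p ∈ P, (1 - κ p x / (p : ℝ)) := by
  induction P using Finset.induction_on generalizing W with
  | empty => exact ⟨fun _ => 0, by simp⟩
  | insert q P' hq ih =>
    have hP' : ∀ p ∈ P', 0 < p := fun p hp => hP p (Finset.mem_insert_of_mem hp)
    have hκ1' : ∀ p ∈ P', ∀ x ∈ X, κ p x ≤ (p : ℝ) :=
      fun p hp => hκ1 p (Finset.mem_insert_of_mem hp)
    have hκ' : ∀ p ∈ P', ∀ x ∈ X,
        κ p x ≤ (((range p).filter (fun r => K p r x)).card : ℝ) :=
      fun p hp => hκ p (Finset.mem_insert_of_mem hp)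
    have hq0 : 0 < q := hP q (Finset.mem_insert_self q P')
    -- nonnegativity of the intermediate products
    have hprod : ∀ x ∈ X, 0 ≤ ∏ p ∈ P', (1 - κ p x / (p : ℝ)) := by
      intro x hx
      apply Finset.prod_nonneg
      intro p hp
      have hp0 : (0 : ℝ) < (p : ℝ) := by exact_mod_cast hP' p hp
      rw [sub_nonneg, div_le_one hp0]
      exact hκ1' p hp x hx
    -- choose the residue modulo q
    obtain ⟨r0, hr0⟩ := avg_one K q hq0 X (fun x => W x * ∏ p ∈ P', (1 - κ p x / (p : ℝ)))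
      (fun x hx => mul_nonneg (hW x hx) (hprod x hx)) (κ q)
      (hκ q (Finset.mem_insert_self q P'))
    -- apply the induction hypothesis to the new weights
    obtain ⟨r', hr'⟩ := ih hP' hκ1' hκ' (fun x => W x * surv K q r0 x)
      (fun x hx => mul_nonneg (hW x hx) (surv_nonneg K q r0 x))
    refine ⟨Function.update r' q r0, ?_⟩
    have hL : ∀ x ∈ X, W x * ∏ p ∈ insert q P', surv K p (Function.update r' q r0 p) x
        = W x * surv K q r0 x * ∏ p ∈ P', surv K p (r' p) x := by
      intro x _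
      rw [Finset.prod_insert hq, Function.update_self]
      have h1 : ∏ p ∈ P', surv K p (Function.update r' q r0 p) x
          = ∏ p ∈ P', surv K p (r' p) x := by
        apply Finset.prod_congr rfl
        intro p hp
        have hpq : p ≠ q := fun h => hq (h ▸ hp)
        rw [Function.update_of_ne hpq]
      rw [h1]
      ring
    have hR : ∀ x ∈ X, W x * ∏ p ∈ insert q P', (1 - κ p x / (p : ℝ))
        = W x * (∏ p ∈ P', (1 - κ p x / (p : ℝ))) * (1 - κ q x / (q : ℝ)) := by
      intro x _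
      rw [Finset.prod_insert hq]
      ring
    rw [Finset.sum_congr rfl hL, Finset.sum_congr rfl hR]
    refine le_trans hr' (le_trans (le_of_eq ?_) hr0)
    apply Finset.sum_congr rfl
    intro x _
    ring

open Classical in
/-- the number of survivors as a sum of products of indicators -/
lemma card_survivors {α : Type*} (K : ℕ → ℕ → α → Prop) (X : Finset α) (P : Finset ℕ)
    (r : ℕ → ℕ) :
    ((X.filter (fun x => ∀ p ∈ P, ¬ K p (r p) x)).card : ℝ)
      = ∑ x ∈ X, (1 : ℝ) * ∏ p ∈ P, surv K p (r p) x := by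
  rw [Finset.card_filter]
  push_cast
  apply Finset.sum_congr rfl
  intro x _
  rw [one_mul]
  by_cases h : ∀ p ∈ P, ¬ K p (r p) x
  · rw [if_pos h]
    symm
    apply Finset.prod_eq_one
    intro p hp
    exact surv_of_not (h p hp)
  · rw [if_neg h]
    simp only [not_forall, not_not] at h
    obtain ⟨p, hp, hk⟩ := h
    symm
    exact Finset.prod_eq_zero hp (surv_of hk)

end Vale.Agent.Lib.P015
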