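import Mathlib

/-!
# The character `χ₄` on natural numbers and alternating sums
-/

namespace Vale.Agent.Lib.P015

open Finset

/-- the nontrivial character mod 4, real valued, on natural numbers -/
noncomputable def chi4 (n : ℕ) : ℝ := if n % 4 = 1 then 1 else if n % 4 = 3 then -1 else 0

lemma chi4_mul (m n : ℕ) : chi4 (m * n) = chi4 m * chi4 n := by
  unfold chi4
  have h := Nat.mul_mod m n 4
  have hm : m % 4 < 4 := Nat.mod_lt _ (by norm_num)
  have hn : n % 4 < 4 := Nat.mod_lt _ (by norm_num)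
  rw [h]
  generalize m % 4 = a at *
  generalize n % 4 = b at *
  interval_cases a <;> interval_cases b <;> norm_num

lemma chi4_abs_le (n : ℕ) : |chi4 n| ≤ 1 := by
  unfold chi4
  split_ifs <;> norm_num

lemma chi4_zero : chi4 0 = 0 := by
  unfold chi4; norm_num

lemma chi4_one : chi4 1 = 1 := by
  unfold chi4; norm_num

lemma chi4_odd (j : ℕ) : chi4 (2 * j + 1) = (-1 : ℝ) ^ j := by
  unfold chi4
  rcases Nat.even_or_odd j with ⟨i, hi⟩ | ⟨i, hi⟩
  · have h1 : (2 * j + 1) % 4 = 1 := by omega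
    rw [if_pos h1, hi, ← two_mul, pow_mul]; norm_num
  · have h1 : (2 * j + 1) % 4 = 3 := by omega
    have h2 : ¬ ((2 * j + 1) % 4 = 1) := by omega
    rw [if_neg h2, if_pos h1, hi, pow_succ, pow_mul]; norm_num

lemma chi4_even (j : ℕ) : chi4 (2 * j) = 0 := by
  unfold chi4
  have h1 : ¬ ((2 * j) % 4 = 1) := by omega
  have h2 : ¬ ((2 * j) % 4 = 3) := by omega
  rw [if_neg h1, if_neg h2]

/-- a `χ₄`-twisted sum is an alternating sum over the odd numbers -/
lemma sum_chi4_eq (g : ℕ → ℝ) (M : ℕ) :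
    ∑ m ∈ Ioc 0 M, chi4 m * g m = ∑ j ∈ range ((M + 1) / 2), (-1 : ℝ) ^ j * g (2 * j + 1) := by
  induction M with
  | zero => simp
  | succ M ih =>
    rw [Finset.sum_Ioc_succ_top (Nat.zero_le M), ih]
    rcases Nat.even_or_odd M with ⟨i, hi⟩ | ⟨i, hi⟩
    · -- M = 2 i, M + 1 = 2 i + 1 is odd: a new term
      have h1 : (M + 1) / 2 = i := by omega
      have h2 : (M + 1 + 1) / 2 = i + 1 := by omega
      have h3 : M + 1 = 2 * i + 1 := by omega
      rw [h1, h2, Finset.sum_range_succ, h3, chi4_odd]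
    · -- M = 2 i + 1, M + 1 even: no new term
      have h1 : (M + 1) / 2 = i + 1 := by omega
      have h2 : (M + 1 + 1) / 2 = i + 1 := by omega
      have h3 : M + 1 = 2 * (i + 1) := by omega
      rw [h1, h2, h3, chi4_even]; ring

/-- finite sums of an alternating series with antitone nonnegative terms lie in `[0, u 0]` -/
lemma alternating_sum_bounds (u : ℕ → ℝ) (hu : Antitone u) (h0 : ∀ j, 0 ≤ u j) (J : ℕ) :
    0 ≤ ∑ j ∈ range J, (-1 : ℝ) ^ j * u j ∧ ∑ j ∈ range J, (-1 : ℝ) ^ j * u j ≤ u 0 := by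
  have key : ∀ J, (Even J → 0 ≤ ∑ j ∈ range J, (-1 : ℝ) ^ j * u j ∧
        ∑ j ∈ range J, (-1 : ℝ) ^ j * u j ≤ u 0 - u J) ∧
      (Odd J → u J ≤ ∑ j ∈ range J, (-1 : ℝ) ^ j * u j ∧
        ∑ j ∈ range J, (-1 : ℝ) ^ j * u j ≤ u 0) := by
    intro J
    induction J with
    | zero =>
      refine ⟨fun _ => by simp, fun h => ?_⟩
      exact absurd h (by decide)
    | succ J ih =>
      rw [Finset.sum_range_succ]
      have hmono : u (J + 1) ≤ u J := hu (Nat.le_succ J)
      constructor
      · intro hev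
        have hodd : Odd J := by
          rcases Nat.even_or_odd J with h | h
          · exact absurd hev (by rw [Nat.even_add_one]; simpa using h)
          · exact h
        obtain ⟨h1, h2⟩ := ih.2 hodd
        rw [hodd.neg_one_pow]
        constructor <;> linarith
      · intro hodd'
        have hev : Even J := by
          rcases Nat.even_or_odd J with h | h
          · exact h
          · exact absurd hodd' (by rw [Nat.odd_add_one]; simpa using h)
        obtain ⟨h1, h2⟩ := ih.1 hev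
        rw [hev.neg_one_pow]
        constructor <;> linarith
  rcases Nat.even_or_odd J with h | h
  · obtain ⟨h1, h2⟩ := (key J).1 h
    exact ⟨h1, by linarith [h0 J]⟩
  · obtain ⟨h1, h2⟩ := (key J).2 h
    exact ⟨by linarith [h0 J], h2⟩

/-- tails of an alternating series with antitone nonnegative terms -/
lemma alternating_tail_abs_le (u : ℕ → ℝ) (hu : Antitone u) (h0 : ∀ j, 0 ≤ u j) (J J' : ℕ)
    (hJ : J ≤ J') :
    |∑ j ∈ range J', (-1 : ℝ) ^ j * u j - ∑ j ∈ range J, (-1 : ℝ) ^ j * u j| ≤ u J := by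
  obtain ⟨d, rfl⟩ := Nat.exists_eq_add_of_le hJ
  rw [Finset.sum_range_add, add_sub_cancel_left]
  have e : ∑ x ∈ range d, (-1 : ℝ) ^ (J + x) * u (J + x)
      = (-1 : ℝ) ^ J * ∑ x ∈ range d, (-1 : ℝ) ^ x * u (J + x) := by
    rw [Finset.mul_sum]
    refine Finset.sum_congr rfl fun x _ => ?_
    rw [pow_add]; ring
  rw [e, abs_mul, abs_pow, abs_neg, abs_one, one_pow, one_mul]
  have hb := alternating_sum_bounds (fun x => u (J + x))
    (fun a b hab => hu (Nat.add_le_add_left hab J)) (fun x => h0 _) d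
  rw [abs_le]
  constructor
  · linarith [hb.1, h0 J]
  · simpa using hb.2

end Vale.Agent.Lib.P015
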