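import Vale.Agent.Lib.P015.Strip

/-!
# An explicit value for the constant
-/

namespace Vale.Agent.Lib.P015

lemma exp_nat_le (n : ℕ) : Real.exp (n : ℝ) ≤ (2.72 : ℝ) ^ n := by
  have h1 : Real.exp (n : ℝ) = Real.exp 1 ^ n := by
    rw [← Real.exp_nat_mul, mul_one]
  rw [h1]
  apply pow_le_pow_left₀ (Real.exp_pos 1).le
  have := Real.exp_one_lt_d9
  linarith

lemma Bc_le : (Bc : ℝ) ≤ (2.72 : ℝ) ^ 42 + 1 := by
  unfold Bc
  have h1 : ((⌈Real.exp 42⌉₊ : ℕ) : ℝ) < Real.exp 42 + 1 :=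
    Nat.ceil_lt_add_one (Real.exp_pos 42).le
  have h2 := exp_nat_le 42
  push_cast at h2
  linarith

lemma C3_le : C3 ≤ (2.72 : ℝ) ^ 29 := by
  unfold C3
  have h1 : 20 / Real.log 2 ≤ 29 := by
    have h2 := Real.log_two_gt_d9
    rw [div_le_iff₀ (by linarith)]
    linarith
  have h3 := exp_nat_le 29
  push_cast at h3
  exact le_trans (Real.exp_le_exp.mpr h1) h3

lemma N9_le : (N9 : ℝ) ≤ 6 * (2.72 : ℝ) ^ 29 + 7 := by
  unfold N9
  push_cast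
  have h1 : ((⌈6 * C3⌉₊ : ℕ) : ℝ) < 6 * C3 + 1 :=
    Nat.ceil_lt_add_one (by have := C3_pos; linarith)
  have h2 := C3_le
  linarith

lemma K0_le : 2 * K0 ≤ (10 : ℝ) ^ 33 := by
  unfold K0
  have h1 := Bc_le
  have h2 := N9_le
  have h3 : (0 : ℝ) ≤ (Bc : ℝ) := Nat.cast_nonneg _
  have h4 : (0 : ℝ) ≤ (N9 : ℝ) := Nat.cast_nonneg _
  have h5 : (Bc : ℝ) * (N9 : ℝ) ≤ ((2.72 : ℝ) ^ 42 + 1) * (6 * (2.72 : ℝ) ^ 29 + 7) :=
    mul_le_mul h1 h2 h4 (by positivity)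
  have h6 : 2 * (4 + 4 * (((2.72 : ℝ) ^ 42 + 1) * (6 * (2.72 : ℝ) ^ 29 + 7))) ≤ (10 : ℝ) ^ 33 := by
    norm_num
  linarith

/-- No bounded-step walk on Gaussian primes inside the strip
`10^33 * D * |Im z| ≤ log (|Re z| + 2)`. -/
theorem no_walk_in_strip_explicit (D : ℝ) (z : ℕ → GaussianInt)
    (hinj : Function.Injective z) (hirr : ∀ n, Irreducible (z n))
    (hstep : ∀ n, ‖GaussianInt.toComplex (z (n + 1)) - GaussianInt.toComplex (z n)‖ ≤ D)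
    (hband : ∀ n, 10 ^ 33 * D * |((z n).im : ℝ)| ≤ Real.log (|((z n).re : ℝ)| + 2)) :
    False := by
  apply no_walk_in_strip D z hinj hirr hstep
  intro n
  have h := hband n
  have hK := K0_pos
  have hK2 := K0_le
  have hL : 0 ≤ Real.log (|((z n).re : ℝ)| + 2) :=
    Real.log_nonneg (by have := abs_nonneg ((z n).re : ℝ); linarith)
  rw [one_div_mul_eq_div, le_div_iff₀ (by positivity)]
  by_cases h0 : 0 ≤ D * |((z n).im : ℝ)|
  · calc D * |((z n).im : ℝ)| * (2 * K0) ≤ D * |((z n).im : ℝ)| * (10 : ℝ) ^ 33 :=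
          mul_le_mul_of_nonneg_left hK2 h0
      _ = 10 ^ 33 * D * |((z n).im : ℝ)| := by ring
      _ ≤ _ := h
  · have h1 : D * |((z n).im : ℝ)| * (2 * K0) ≤ 0 :=
      mul_nonpos_of_nonpos_of_nonneg (le_of_not_ge h0) (by positivity)
    linarith

end Vale.Agent.Lib.P015
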