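import Mathlib

/-!
# Residues modulo a split prime that force divisibility of `(r + a)^2 + n^2`
-/

namespace Vale.Agent.Lib.P015

open Finset

/-- `kills p r x`: the number `p` divides `(r + a)^2 + n^2` where `x = (a, n)` -/
def kills (p r : ℕ) (x : ℕ × ℕ) : Prop := p ∣ (r + x.1) ^ 2 + x.2 ^ 2

lemma kills_iff_zmod (p r : ℕ) (x : ℕ × ℕ) :
    kills p r x ↔ (((r : ZMod p) + (x.1 : ZMod p)) ^ 2 + (x.2 : ZMod p) ^ 2 = 0) := by
  unfold kills
  rw [← ZMod.natCast_eq_zero_iff]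
  push_cast
  rfl

/-- the congruence class of the residue is all that matters -/
lemma kills_congr {p r r' : ℕ} (h : r ≡ r' [MOD p]) (x : ℕ × ℕ) :
    kills p r x ↔ kills p r' x := by
  rw [kills_iff_zmod, kills_iff_zmod, (ZMod.natCast_eq_natCast_iff r r' p).mpr h]

/-- for a prime `p ≡ 1 (mod 4)` some residue kills a given point -/
lemma exists_kill {p : ℕ} (hp : p.Prime) (h4 : p % 4 = 1) (x : ℕ × ℕ) :
    ∃ r ∈ range p, kills p r x := by
  have hfact : Fact p.Prime := Fact.mk hp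
  obtain ⟨ι, hι⟩ : IsSquare (-1 : ZMod p) := ZMod.exists_sq_eq_neg_one_iff.mpr (by omega)
  refine ⟨ZMod.val (ι * (x.2 : ZMod p) - (x.1 : ZMod p)), ?_, ?_⟩
  · rw [Finset.mem_range]; exact ZMod.val_lt _
  · rw [kills_iff_zmod, ZMod.natCast_zmod_val]
    have e : (ι * (x.2 : ZMod p) - (x.1 : ZMod p) + (x.1 : ZMod p)) ^ 2 + (x.2 : ZMod p) ^ 2
        = (ι * ι + 1) * (x.2 : ZMod p) ^ 2 := by ring
    rw [e, ← hι]
    ring

open Classical in
/-- for a prime `p ≡ 1 (mod 4)` not dividing `n`, two residues kill the point `(a, n)` -/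
lemma two_le_card_kill {p : ℕ} (hp : p.Prime) (h4 : p % 4 = 1) (x : ℕ × ℕ) (hx : ¬ p ∣ x.2) :
    2 ≤ ((range p).filter (fun r => kills p r x)).card := by
  have hfact : Fact p.Prime := Fact.mk hp
  obtain ⟨ι, hι⟩ : IsSquare (-1 : ZMod p) := ZMod.exists_sq_eq_neg_one_iff.mpr (by omega)
  have hn0 : (x.2 : ZMod p) ≠ 0 := by
    rw [Ne, ZMod.natCast_eq_zero_iff]; exact hx
  have hι0 : ι ≠ 0 := by
    rintro rfl
    rw [mul_zero] at hι
    have : (1 : ZMod p) = 0 := by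
      have h := congrArg (fun t => -t) hι
      simp at h
    exact one_ne_zero this
  have h2 : (2 : ZMod p) ≠ 0 := by
    have h5 : 5 ≤ p := by
      have := hp.two_le
      by_contra hcon
      have : p = 1 := by omega
      omega
    intro h
    have h' : ((2 : ℕ) : ZMod p) = 0 := by exact_mod_cast h
    rw [ZMod.natCast_eq_zero_iff] at h'
    have := Nat.le_of_dvd (by norm_num) h'
    omega
  obtain ⟨r1, hr1⟩ : ∃ r1, r1 = ZMod.val (ι * (x.2 : ZMod p) - (x.1 : ZMod p)) := ⟨_, rfl⟩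
  obtain ⟨r2, hr2⟩ : ∃ r2, r2 = ZMod.val (-(ι * (x.2 : ZMod p)) - (x.1 : ZMod p)) := ⟨_, rfl⟩
  have hne : r1 ≠ r2 := by
    rw [hr1, hr2]
    intro h
    have h3 := ZMod.val_injective p h
    have h4 : 2 * (ι * (x.2 : ZMod p)) = 0 := by
      have h5 : ι * (x.2 : ZMod p) = -(ι * (x.2 : ZMod p)) := by
        have := congrArg (fun t => t + (x.1 : ZMod p)) h3
        simpa using this
      calc 2 * (ι * (x.2 : ZMod p)) = ι * (x.2 : ZMod p) + ι * (x.2 : ZMod p) := by ring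
        _ = ι * (x.2 : ZMod p) + -(ι * (x.2 : ZMod p)) := by rw [← h5]
        _ = 0 := by ring
    rcases mul_eq_zero.mp h4 with h6 | h6
    · exact h2 h6
    · rcases mul_eq_zero.mp h6 with h7 | h7
      · exact hι0 h7
      · exact hn0 h7
  have hk1 : kills p r1 x := by
    rw [kills_iff_zmod, hr1, ZMod.natCast_zmod_val]
    have e : (ι * (x.2 : ZMod p) - (x.1 : ZMod p) + (x.1 : ZMod p)) ^ 2 + (x.2 : ZMod p) ^ 2
        = (ι * ι + 1) * (x.2 : ZMod p) ^ 2 := by ring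
    rw [e, ← hι]
    ring
  have hk2 : kills p r2 x := by
    rw [kills_iff_zmod, hr2, ZMod.natCast_zmod_val]
    have e : (-(ι * (x.2 : ZMod p)) - (x.1 : ZMod p) + (x.1 : ZMod p)) ^ 2 + (x.2 : ZMod p) ^ 2
        = (ι * ι + 1) * (x.2 : ZMod p) ^ 2 := by ring
    rw [e, ← hι]
    ring
  have hsub : ({r1, r2} : Finset ℕ) ⊆ (range p).filter (fun r => kills p r x) := by
    intro r hr
    rw [Finset.mem_insert, Finset.mem_singleton] at hr
    rw [Finset.mem_filter, Finset.mem_range]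
    rcases hr with rfl | rfl
    · exact ⟨by rw [hr1]; exact ZMod.val_lt _, hk1⟩
    · exact ⟨by rw [hr2]; exact ZMod.val_lt _, hk2⟩
  have hcard : ({r1, r2} : Finset ℕ).card = 2 := Finset.card_pair hne
  calc 2 = ({r1, r2} : Finset ℕ).card := hcard.symm
    _ ≤ _ := Finset.card_le_card hsub

open Classical in
lemma one_le_card_kill {p : ℕ} (hp : p.Prime) (h4 : p % 4 = 1) (x : ℕ × ℕ) :
    1 ≤ ((range p).filter (fun r => kills p r x)).card := by
  obtain ⟨r, hr, hk⟩ := exists_kill hp h4 x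
  exact Finset.card_pos.mpr ⟨r, Finset.mem_filter.mpr ⟨hr, hk⟩⟩

end Vale.Agent.Lib.P015
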