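import Vale.Agent.Lib.P015.Walk

/-!
# Composite slabs across an arbitrary line through two Gaussian integers
-/

namespace Vale.Agent.Lib.P015

/-- norm as a sum of squares -/
lemma gnorm_eq (x : GaussianInt) : x.norm = x.re^2 + x.im^2 := by
  rw [Zsqrtd.norm_def]; ring

lemma gnorm_nonneg (x : GaussianInt) : 0 ≤ x.norm := by
  rw [gnorm_eq]; positivity

lemma gnorm_add_le (x y : GaussianInt) : (x + y).norm ≤ 2 * x.norm + 2 * y.norm := by
  simp only [gnorm_eq, Zsqrtd.re_add, Zsqrtd.im_add]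
  nlinarith [sq_nonneg (x.re - y.re), sq_nonneg (x.im - y.im)]

lemma gnorm_add3_le (x y z : GaussianInt) :
    (x + y + z).norm ≤ 3 * x.norm + 3 * y.norm + 3 * z.norm := by
  simp only [gnorm_eq, Zsqrtd.re_add, Zsqrtd.im_add]
  nlinarith [sq_nonneg (x.re - y.re), sq_nonneg (x.im - y.im), sq_nonneg (x.re - z.re),
    sq_nonneg (x.im - z.im), sq_nonneg (y.re - z.re), sq_nonneg (y.im - z.im)]

lemma gnorm_neg (x : GaussianInt) : (-x).norm = x.norm := by
  simp only [gnorm_eq, Zsqrtd.re_neg, Zsqrtd.im_neg]; ring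

/-- If `9 ≤ N(γ)`, `N(γ) ∣ F`, `F > 0` and `X ≠ 0`, then `F X + γ` is not irreducible:
it equals `γ * (conj γ * q * X + 1)`. -/
lemma not_irreducible_of_dvd (γ X : GaussianInt) (F : ℤ) (hγ : 9 ≤ γ.norm) (hF : γ.norm ∣ F)
    (hFpos : 0 < F) (hX : X ≠ 0) : ¬ Irreducible ((F : GaussianInt) * X + γ) := by
  obtain ⟨q, rfl⟩ := hF
  have hq : 1 ≤ q := by
    by_contra hcon
    have : q ≤ 0 := by omega
    nlinarith
  have e : (((γ.norm * q : ℤ)) : GaussianInt) * X + γ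
      = γ * (star γ * (q : GaussianInt) * X + 1) := by
    rw [Int.cast_mul, Zsqrtd.norm_eq_mul_conj]; ring
  rw [e]
  intro hirr
  rcases hirr.isUnit_or_isUnit rfl with h | h
  · rw [isUnit_iff_norm_eq_one] at h; omega
  · rw [isUnit_iff_norm_eq_one] at h
    have h1 : (star γ * (q : GaussianInt) * X).norm = γ.norm * (q * q) * X.norm := by
      rw [Zsqrtd.norm_mul, Zsqrtd.norm_mul, Zsqrtd.norm_conj, Zsqrtd.norm_intCast]
    have h2 : star γ * (q : GaussianInt) * X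
        = (star γ * (q : GaussianInt) * X + 1) + (-1) := by ring
    have h3 := gnorm_add_le (star γ * (q : GaussianInt) * X + 1) (-1)
    rw [← h2, h1, h] at h3
    have hXn : 1 ≤ X.norm := by
      have := GaussianInt.norm_pos.mpr hX
      omega
    have h4 : (-1 : GaussianInt).norm = 1 := by
      rw [gnorm_neg]; simp [gnorm_eq]
    rw [h4] at h3
    have h5 : 9 ≤ γ.norm * (q * q) := by nlinarith
    nlinarith

/-- The Gaussian integer `β` with `β * conj v = a + c i`, when it exists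
(componentwise integer division otherwise). -/
def lineOff (v : GaussianInt) (a c : ℤ) : GaussianInt :=
  ⟨(a * v.re - c * v.im) / v.norm, (a * v.im + c * v.re) / v.norm⟩

lemma lineOff_eq {v β : GaussianInt} (hv : v ≠ 0) {a c : ℤ}
    (hre : (β * star v).re = a) (him : (β * star v).im = c) : lineOff v a c = β := by
  have hN : v.norm ≠ 0 := fun h => hv (GaussianInt.norm_eq_zero.mp h)
  simp only [Zsqrtd.re_mul, Zsqrtd.im_mul, Zsqrtd.re_star, Zsqrtd.im_star] at hre him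
  unfold lineOff
  apply Zsqrtd.ext
  · simp only
    have : a * v.re - c * v.im = β.re * v.norm := by
      rw [← hre, ← him, gnorm_eq]; ring
    rw [this, Int.mul_ediv_cancel _ hN]
  · simp only
    have : a * v.im + c * v.re = β.im * v.norm := by
      rw [← hre, ← him, gnorm_eq]; ring
    rw [this, Int.mul_ediv_cancel _ hN]

/-- crude size bound for `lineOff` -/
lemma lineOff_norm_le (v : GaussianInt) (a c : ℤ) (K W : ℕ) (ha : |a| ≤ K) (hc : |c| ≤ W) :
    (lineOff v a c).norm ≤ 2 * (((K : ℤ) + W) * (|v.re| + |v.im|))^2 := by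
  have h1 : |(a * v.re - c * v.im) / v.norm| ≤ ((K : ℤ) + W) * (|v.re| + |v.im|) := by
    refine le_trans (Int.abs_ediv_le_abs _ _) ?_
    have h2 : |a * v.re - c * v.im| ≤ |a| * |v.re| + |c| * |v.im| := by
      have := abs_sub (a * v.re) (c * v.im)
      rwa [abs_mul, abs_mul] at this
    have h3 := abs_nonneg v.re
    have h4 := abs_nonneg v.im
    have h5 := abs_nonneg a
    have h6 := abs_nonneg c
    nlinarith
  have h1' : |(a * v.im + c * v.re) / v.norm| ≤ ((K : ℤ) + W) * (|v.re| + |v.im|) := by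
    refine le_trans (Int.abs_ediv_le_abs _ _) ?_
    have h2 : |a * v.im + c * v.re| ≤ |a| * |v.im| + |c| * |v.re| := by
      have := abs_add_le (a * v.im) (c * v.re)
      rwa [abs_mul, abs_mul] at this
    have h3 := abs_nonneg v.re
    have h4 := abs_nonneg v.im
    have h5 := abs_nonneg a
    have h6 := abs_nonneg c
    nlinarith
  rw [gnorm_eq]
  unfold lineOff
  simp only
  have e1 := sq_le_sq' (neg_le_of_abs_le h1) (le_of_abs_le h1)
  have e2 := sq_le_sq' (neg_le_of_abs_le h1') (le_of_abs_le h1')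
  linarith

/-- the factor contributed by an offset: its norm, or `1` if the norm vanishes -/
def gfac (γ : GaussianInt) : ℕ := max 1 γ.norm.natAbs

lemma gfac_pos (γ : GaussianInt) : 0 < gfac γ := by
  unfold gfac
  exact lt_of_lt_of_le one_pos (le_max_left _ _)

lemma gfac_le (γ : GaussianInt) (R : ℕ) (hR : 1 ≤ R) (h : γ.norm ≤ R) : gfac γ ≤ R := by
  unfold gfac
  have := gnorm_nonneg γ
  exact max_le hR (by omega)

lemma norm_dvd_gfac (γ : GaussianInt) (h : γ.norm ≠ 0) : γ.norm ∣ (gfac γ : ℤ) := by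
  unfold gfac
  have h1 : 1 ≤ γ.norm.natAbs := Int.natAbs_pos.mpr h
  rw [max_eq_right h1]
  exact Int.dvd_natAbs_self

/-- the product of the norms of all offsets of the two slabs -/
noncomputable def lineF (z0 v : GaussianInt) (j : ℤ) (K W : ℕ) : ℕ :=
  ∏ a ∈ Finset.Icc (-(K : ℤ)) 0, ∏ c ∈ Finset.Icc (-(W : ℤ)) W,
    (gfac (z0 + (j : GaussianInt) * v + lineOff v a c)
      * gfac (-z0 + (j : GaussianInt) * v + lineOff v a c))

lemma lineF_pos (z0 v : GaussianInt) (j : ℤ) (K W : ℕ) : 0 < lineF z0 v j K W := by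
  unfold lineF
  apply Finset.prod_pos; intro a _; apply Finset.prod_pos; intro c _
  exact Nat.mul_pos (gfac_pos _) (gfac_pos _)

lemma dvd_lineF (z0 v : GaussianInt) (j : ℤ) (K W : ℕ) {a c : ℤ}
    (ha : a ∈ Finset.Icc (-(K : ℤ)) 0) (hc : c ∈ Finset.Icc (-(W : ℤ)) W) :
    gfac (z0 + (j : GaussianInt) * v + lineOff v a c)
      * gfac (-z0 + (j : GaussianInt) * v + lineOff v a c) ∣ lineF z0 v j K W := by
  unfold lineF
  have h1 := Finset.dvd_prod_of_mem (fun a' => ∏ c' ∈ Finset.Icc (-(W : ℤ)) W,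
    (gfac (z0 + (j : GaussianInt) * v + lineOff v a' c')
      * gfac (-z0 + (j : GaussianInt) * v + lineOff v a' c'))) ha
  refine dvd_trans ?_ h1
  exact Finset.dvd_prod_of_mem (fun c' =>
    (gfac (z0 + (j : GaussianInt) * v + lineOff v a c')
      * gfac (-z0 + (j : GaussianInt) * v + lineOff v a c'))) hc

lemma lineF_le (z0 v : GaussianInt) (j : ℤ) (K W R : ℕ)
    (hR : ∀ a ∈ Finset.Icc (-(K : ℤ)) 0, ∀ c ∈ Finset.Icc (-(W : ℤ)) W,
      gfac (z0 + (j : GaussianInt) * v + lineOff v a c) ≤ R ∧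
      gfac (-z0 + (j : GaussianInt) * v + lineOff v a c) ≤ R) :
    lineF z0 v j K W ≤ (R^2) ^ ((K + 1) * (2 * W + 1)) := by
  unfold lineF
  calc (∏ a ∈ Finset.Icc (-(K : ℤ)) 0, ∏ c ∈ Finset.Icc (-(W : ℤ)) W,
          (gfac (z0 + (j : GaussianInt) * v + lineOff v a c)
            * gfac (-z0 + (j : GaussianInt) * v + lineOff v a c)))
      ≤ ∏ a ∈ Finset.Icc (-(K : ℤ)) 0, ∏ c ∈ Finset.Icc (-(W : ℤ)) W, R^2 := by
        apply Finset.prod_le_prod'
        intro a ha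
        apply Finset.prod_le_prod'
        intro c hc
        obtain ⟨h1, h2⟩ := hR a ha c hc
        calc _ ≤ R * R := Nat.mul_le_mul h1 h2
          _ = R^2 := by ring
    _ = (R^2) ^ ((K + 1) * (2 * W + 1)) := by
        simp only [Finset.prod_const, Int.card_Icc]
        rw [← pow_mul]
        congr 1
        have e1 : (0 + 1 - -(K : ℤ)).toNat = K + 1 := by omega
        have e2 : ((W : ℤ) + 1 - -(W : ℤ)).toNat = 2 * W + 1 := by omega
        rw [e1, e2, mul_comm]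

/-- lower bound for the norm of an offset -/
lemma offset_norm_ge (z0 v β : GaussianInt) (hv : v ≠ 0) (K : ℕ) (M0 : ℤ) (hM0 : 0 ≤ M0)
    (hM : 2 * z0.norm + 18 ≤ M0^2) (hre : -(K : ℤ) ≤ (β * star v).re) :
    9 ≤ (z0 + (((K : ℤ) + M0 : ℤ) : GaussianInt) * v + β).norm := by
  have hNv : 1 ≤ v.norm := by
    have := GaussianInt.norm_pos.mpr hv
    omega
  obtain ⟨u, hu⟩ : ∃ u : GaussianInt, u = (((K : ℤ) + M0 : ℤ) : GaussianInt) * v + β := ⟨_, rfl⟩
  have h1 : (u * star v).re = ((K : ℤ) + M0) * v.norm + (β * star v).re := by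
    rw [hu, add_mul, mul_assoc, ← Zsqrtd.norm_eq_mul_conj, Zsqrtd.re_add, ← Int.cast_mul,
      Zsqrtd.re_intCast]
  have h2 : u.norm * v.norm = (u * star v).re^2 + (u * star v).im^2 := by
    rw [← gnorm_eq, Zsqrtd.norm_mul, Zsqrtd.norm_conj]
  have h3 : M0 * v.norm ≤ (u * star v).re := by
    rw [h1]
    have : (K : ℤ) ≤ (K : ℤ) * v.norm := by
      have hK : (0 : ℤ) ≤ (K : ℤ) := Int.natCast_nonneg K
      nlinarith
    nlinarith
  have h4 : (M0 * v.norm)^2 ≤ u.norm * v.norm := by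
    rw [h2]
    have : 0 ≤ M0 * v.norm := by positivity
    nlinarith [sq_nonneg ((u * star v).im)]
  have h5 : M0^2 ≤ u.norm := by
    have h6 : M0^2 * v.norm * v.norm ≤ u.norm * v.norm := by nlinarith
    have h7 : M0^2 * v.norm ≤ u.norm := le_of_mul_le_mul_right h6 (by omega)
    have : M0^2 ≤ M0^2 * v.norm := by nlinarith [sq_nonneg M0]
    linarith
  have h8 : u.norm ≤ 2 * (z0 + u).norm + 2 * z0.norm := by
    have := gnorm_add_le (z0 + u) (-z0)
    rw [gnorm_neg] at this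
    have e : z0 + u + -z0 = u := by ring
    rwa [e] at this
  have e : z0 + (((K : ℤ) + M0 : ℤ) : GaussianInt) * v + β = z0 + u := by rw [hu]; ring
  rw [e]
  linarith

/-- The slab on the positive side of the line. -/
theorem not_irreducible_pos_slab (z0 v : GaussianInt) (hv : v ≠ 0) (K W : ℕ) (M0 : ℤ)
    (hM0 : 0 ≤ M0) (hM : 2 * z0.norm + 18 ≤ M0^2) (z : GaussianInt)
    (h1 : ((lineF z0 v ((K : ℤ) + M0) K W : ℤ) + ((K : ℤ) + M0)) * v.norm - K
        ≤ ((z - z0) * star v).re)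
    (h2 : ((z - z0) * star v).re
        ≤ ((lineF z0 v ((K : ℤ) + M0) K W : ℤ) + ((K : ℤ) + M0)) * v.norm)
    (h3 : |((z - z0) * star v).im| ≤ W) : ¬ Irreducible z := by
  obtain ⟨F, hF⟩ : ∃ F : ℕ, F = lineF z0 v ((K : ℤ) + M0) K W := ⟨_, rfl⟩
  rw [← hF] at h1 h2
  have hFpos : 0 < (F : ℤ) := by
    rw [hF]; exact_mod_cast lineF_pos z0 v ((K : ℤ) + M0) K W
  obtain ⟨β, hβ⟩ : ∃ β : GaussianInt,
      β = z - z0 - ((((F : ℤ) + ((K : ℤ) + M0) : ℤ)) : GaussianInt) * v := ⟨_, rfl⟩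
  have hβv : β * star v = (z - z0) * star v
      - ((((F : ℤ) + ((K : ℤ) + M0)) * v.norm : ℤ) : GaussianInt) := by
    rw [hβ, sub_mul, mul_assoc, ← Zsqrtd.norm_eq_mul_conj, Int.cast_mul]
  obtain ⟨a, ha⟩ : ∃ a : ℤ, a = (β * star v).re := ⟨_, rfl⟩
  obtain ⟨c, hc⟩ : ∃ c : ℤ, c = (β * star v).im := ⟨_, rfl⟩
  have ha' : a = ((z - z0) * star v).re - ((F : ℤ) + ((K : ℤ) + M0)) * v.norm := by
    rw [ha, hβv, Zsqrtd.re_sub, Zsqrtd.re_intCast]
  have hc' : c = ((z - z0) * star v).im := by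
    rw [hc, hβv, Zsqrtd.im_sub, Zsqrtd.im_intCast, sub_zero]
  have haK : a ∈ Finset.Icc (-(K : ℤ)) 0 := by
    rw [Finset.mem_Icc]; constructor <;> linarith
  have hcW : c ∈ Finset.Icc (-(W : ℤ)) W := by
    rw [Finset.mem_Icc, hc']; exact abs_le.mp h3
  have hoff : lineOff v a c = β := lineOff_eq hv ha.symm hc.symm
  obtain ⟨γ, hγ⟩ : ∃ γ : GaussianInt,
      γ = z0 + (((K : ℤ) + M0 : ℤ) : GaussianInt) * v + β := ⟨_, rfl⟩
  have hγ9 : 9 ≤ γ.norm := by
    rw [hγ]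
    apply offset_norm_ge z0 v β hv K M0 hM0 hM
    rw [← ha]; exact (Finset.mem_Icc.mp haK).1
  have hdvd : γ.norm ∣ (F : ℤ) := by
    have d1 : γ.norm ∣ (gfac γ : ℤ) := norm_dvd_gfac γ (by omega)
    have d2 := dvd_lineF z0 v ((K : ℤ) + M0) K W haK hcW
    rw [hoff, ← hγ, ← hF] at d2
    have d3 : (gfac γ : ℤ) ∣ (F : ℤ) := by
      exact_mod_cast dvd_trans (Dvd.intro _ rfl) d2
    exact dvd_trans d1 d3
  have key := not_irreducible_of_dvd γ v (F : ℤ) hγ9 hdvd hFpos hv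
  have e : ((F : ℤ) : GaussianInt) * v + γ = z := by
    rw [hγ, hβ]; push_cast; ring
  rwa [e] at key

/-- The slab on the negative side of the line. -/
theorem not_irreducible_neg_slab (z0 v : GaussianInt) (hv : v ≠ 0) (K W : ℕ) (M0 : ℤ)
    (hM0 : 0 ≤ M0) (hM : 2 * z0.norm + 18 ≤ M0^2) (z : GaussianInt)
    (h1 : -(((lineF z0 v ((K : ℤ) + M0) K W : ℤ) + ((K : ℤ) + M0)) * v.norm)
        ≤ ((z - z0) * star v).re)
    (h2 : ((z - z0) * star v).re
        ≤ -(((lineF z0 v ((K : ℤ) + M0) K W : ℤ) + ((K : ℤ) + M0)) * v.norm) + K)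
    (h3 : |((z - z0) * star v).im| ≤ W) : ¬ Irreducible z := by
  obtain ⟨F, hF⟩ : ∃ F : ℕ, F = lineF z0 v ((K : ℤ) + M0) K W := ⟨_, rfl⟩
  rw [← hF] at h1 h2
  have hFpos : 0 < (F : ℤ) := by
    rw [hF]; exact_mod_cast lineF_pos z0 v ((K : ℤ) + M0) K W
  obtain ⟨β, hβ⟩ : ∃ β : GaussianInt,
      β = -z + z0 - ((((F : ℤ) + ((K : ℤ) + M0) : ℤ)) : GaussianInt) * v := ⟨_, rfl⟩
  have hβv : β * star v = -((z - z0) * star v)
      - ((((F : ℤ) + ((K : ℤ) + M0)) * v.norm : ℤ) : GaussianInt) := by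
    rw [hβ, sub_mul, mul_assoc, ← Zsqrtd.norm_eq_mul_conj, Int.cast_mul]; ring
  obtain ⟨a, ha⟩ : ∃ a : ℤ, a = (β * star v).re := ⟨_, rfl⟩
  obtain ⟨c, hc⟩ : ∃ c : ℤ, c = (β * star v).im := ⟨_, rfl⟩
  have ha' : a = -((z - z0) * star v).re - ((F : ℤ) + ((K : ℤ) + M0)) * v.norm := by
    rw [ha, hβv, Zsqrtd.re_sub, Zsqrtd.re_intCast, Zsqrtd.re_neg]
  have hc' : c = -((z - z0) * star v).im := by
    rw [hc, hβv, Zsqrtd.im_sub, Zsqrtd.im_intCast, sub_zero, Zsqrtd.im_neg]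
  have haK : a ∈ Finset.Icc (-(K : ℤ)) 0 := by
    rw [Finset.mem_Icc]; constructor <;> linarith
  have hcW : c ∈ Finset.Icc (-(W : ℤ)) W := by
    rw [Finset.mem_Icc, hc']
    have := abs_le.mp h3
    constructor <;> linarith [this.1, this.2]
  have hoff : lineOff v a c = β := lineOff_eq hv ha.symm hc.symm
  obtain ⟨γ, hγ⟩ : ∃ γ : GaussianInt,
      γ = -z0 + (((K : ℤ) + M0 : ℤ) : GaussianInt) * v + β := ⟨_, rfl⟩
  have hγ9 : 9 ≤ γ.norm := by
    rw [hγ]
    apply offset_norm_ge (-z0) v β hv K M0 hM0 (by rwa [gnorm_neg])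
    rw [← ha]; exact (Finset.mem_Icc.mp haK).1
  have hdvd : γ.norm ∣ (F : ℤ) := by
    have d1 : γ.norm ∣ (gfac γ : ℤ) := norm_dvd_gfac γ (by omega)
    have d2 := dvd_lineF z0 v ((K : ℤ) + M0) K W haK hcW
    rw [hoff, ← hγ, ← hF] at d2
    have d3 : (gfac γ : ℤ) ∣ (F : ℤ) := by
      exact_mod_cast dvd_trans (Dvd.intro_left _ rfl) d2
    exact dvd_trans d1 d3
  have key := not_irreducible_of_dvd γ v (F : ℤ) hγ9 hdvd hFpos hv
  have e : ((F : ℤ) : GaussianInt) * v + γ = -z := by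
    rw [hγ, hβ]; push_cast; ring
  rw [e] at key
  intro hz
  exact key hz.prime.neg.irreducible

end Vale.Agent.Lib.P015
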