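import Vale.Agent.Lib.P015.Line

/-!
# No bounded-step prime walk to infinity inside a logarithmic band about a line
through two Gaussian integers
-/

namespace Vale.Agent.Lib.P015

/-- coordinates of `(z - z0) * conj v` -/
lemma along_eq (z0 v z : GaussianInt) :
    ((z - z0) * star v).re = (z.re - z0.re) * v.re + (z.im - z0.im) * v.im := by
  simp only [Zsqrtd.re_mul, Zsqrtd.re_sub, Zsqrtd.im_sub, Zsqrtd.re_star, Zsqrtd.im_star]; ring

lemma across_eq (z0 v z : GaussianInt) :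
    ((z - z0) * star v).im = (z.im - z0.im) * v.re - (z.re - z0.re) * v.im := by
  simp only [Zsqrtd.im_mul, Zsqrtd.re_sub, Zsqrtd.im_sub, Zsqrtd.re_star, Zsqrtd.im_star]; ring

/-- the along-coordinate moves by at most `k * (|v.re| + |v.im|)` in a step of length `≤ k` -/
lemma abs_along_sub_le (z0 v : GaussianInt) {x y : GaussianInt} {D : ℝ} {k : ℕ} (hk : D ≤ k)
    (h : ‖GaussianInt.toComplex x - GaussianInt.toComplex y‖ ≤ D) :
    |((x - z0) * star v).re| ≤ |((y - z0) * star v).re| + (k : ℤ) * (|v.re| + |v.im|) := by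
  have h1 := abs_re_sub_le hk h
  have h2 := abs_im_sub_le hk h
  rw [along_eq, along_eq]
  have e : (x.re - z0.re) * v.re + (x.im - z0.im) * v.im
      = ((y.re - z0.re) * v.re + (y.im - z0.im) * v.im)
        + ((x.re - y.re) * v.re + (x.im - y.im) * v.im) := by ring
  rw [e]
  refine le_trans (abs_add_le _ _) ?_
  have h3 : |(x.re - y.re) * v.re + (x.im - y.im) * v.im|
      ≤ |x.re - y.re| * |v.re| + |x.im - y.im| * |v.im| := by
    have := abs_add_le ((x.re - y.re) * v.re) ((x.im - y.im) * v.im)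
    rwa [abs_mul, abs_mul] at this
  have h4 := abs_nonneg v.re
  have h5 := abs_nonneg v.im
  nlinarith

/-- Gaussian integers with bounded coordinates of `(z - z0) * conj v` form a finite set -/
lemma finite_along_across_le (z0 v : GaussianInt) (hv : v ≠ 0) (B : ℤ) :
    {x : GaussianInt | |((x - z0) * star v).re| ≤ B ∧ |((x - z0) * star v).im| ≤ B}.Finite := by
  have hfin := (finite_max_abs_le (2 * B^2)).image (fun y : GaussianInt => y + z0)
  apply hfin.subset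
  rintro x ⟨h1, h2⟩
  refine ⟨x - z0, ?_, by ring⟩
  change max |(x - z0).re| |(x - z0).im| ≤ 2 * B^2
  have hNv : 1 ≤ v.norm := by
    have := GaussianInt.norm_pos.mpr hv
    omega
  have h3 : (x - z0).norm * v.norm = ((x - z0) * star v).re^2 + ((x - z0) * star v).im^2 := by
    rw [← gnorm_eq, Zsqrtd.norm_mul, Zsqrtd.norm_conj]
  have hB : 0 ≤ B := le_trans (abs_nonneg _) h1
  have h4 : ((x - z0) * star v).re^2 ≤ B^2 := sq_le_sq' (neg_le_of_abs_le h1) (le_of_abs_le h1)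
  have h5 : ((x - z0) * star v).im^2 ≤ B^2 := sq_le_sq' (neg_le_of_abs_le h2) (le_of_abs_le h2)
  have h6 : (x - z0).norm ≤ 2 * B^2 := by
    have : (x - z0).norm ≤ (x - z0).norm * v.norm := by
      have := gnorm_nonneg (x - z0)
      nlinarith
    linarith
  rw [gnorm_eq] at h6
  have h7 : |(x - z0).re| ≤ (x - z0).re^2 := by
    rcases abs_cases (x - z0).re with ⟨h, _⟩ | ⟨h, _⟩ <;> rw [h] <;> nlinarith
  have h8 : |(x - z0).im| ≤ (x - z0).im^2 := by
    rcases abs_cases (x - z0).im with ⟨h, _⟩ | ⟨h, _⟩ <;> rw [h] <;> nlinarith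
  exact max_le (by nlinarith [sq_nonneg (x - z0).im]) (by nlinarith [sq_nonneg (x - z0).re])

/-- `|v.re| + |v.im| ≥ 1` for `v ≠ 0` -/
lemma one_le_abs_re_add_abs_im {v : GaussianInt} (hv : v ≠ 0) : 1 ≤ |v.re| + |v.im| := by
  by_contra hcon
  have h1 := abs_nonneg v.re
  have h2 := abs_nonneg v.im
  have h3 : |v.re| = 0 := by omega
  have h4 : |v.im| = 0 := by omega
  apply hv
  apply Zsqrtd.ext
  · simpa using abs_eq_zero.mp h3
  · simpa using abs_eq_zero.mp h4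

/-- size bound of the offsets -/
lemma offset_gfac_le (z0 v : GaussianInt) (K W : ℕ) (j : ℤ) (hj0 : 0 ≤ j) (hjW : j ≤ W)
    (hKW : K ≤ W) (hW2 : v.norm ≤ W) (hW3 : z0.norm ≤ W) (hW4 : |v.re| + |v.im| ≤ W)
    (hW5 : 10 ≤ W) (a c : ℤ) (ha : a ∈ Finset.Icc (-(K : ℤ)) 0)
    (hc : c ∈ Finset.Icc (-(W : ℤ)) W) :
    gfac (z0 + (j : GaussianInt) * v + lineOff v a c) ≤ (W + 3)^6 := by
  apply gfac_le _ _ (Nat.one_le_pow _ _ (by omega))
  have h1 := gnorm_add3_le z0 ((j : GaussianInt) * v) (lineOff v a c)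
  have h2 : ((j : GaussianInt) * v).norm = j * j * v.norm := by
    rw [Zsqrtd.norm_mul, Zsqrtd.norm_intCast]
  have haK : |a| ≤ K := by
    rw [Finset.mem_Icc] at ha
    exact abs_le.mpr ⟨ha.1, by linarith [ha.2, Int.natCast_nonneg K]⟩
  have hcW : |c| ≤ W := by
    rw [Finset.mem_Icc] at hc
    exact abs_le.mpr hc
  have h3 := lineOff_norm_le v a c K W haK hcW
  have hs0 : 0 ≤ |v.re| + |v.im| := by positivity
  have hW0 : (10 : ℤ) ≤ (W : ℤ) := by exact_mod_cast hW5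
  have hKW' : (K : ℤ) ≤ (W : ℤ) := by exact_mod_cast hKW
  have hK0 : (0 : ℤ) ≤ (K : ℤ) := Int.natCast_nonneg K
  have hNv0 := gnorm_nonneg v
  have h4 : j * j * v.norm ≤ (W : ℤ) * W * W := by
    have : j * j ≤ (W : ℤ) * W := mul_le_mul hjW hjW hj0 (by linarith)
    exact mul_le_mul this hW2 hNv0 (by positivity)
  have h5 : (((K : ℤ) + W) * (|v.re| + |v.im|))^2 ≤ (2 * (W : ℤ) * W)^2 := by
    apply pow_le_pow_left₀ (by positivity)
    have : ((K : ℤ) + W) * (|v.re| + |v.im|) ≤ (2 * (W : ℤ)) * W :=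
      mul_le_mul (by linarith) hW4 hs0 (by linarith)
    linarith
  have h6 : (z0 + (j : GaussianInt) * v + lineOff v a c).norm
      ≤ 3 * (W : ℤ) + 3 * ((W : ℤ) * W * W) + 24 * ((W : ℤ) * W * W * W) := by
    rw [h2] at h1
    have e : (2 * (W : ℤ) * W)^2 = 4 * ((W : ℤ) * W * W * W) := by ring
    rw [e] at h5
    linarith
  have h7 : 3 * (W : ℤ) + 3 * ((W : ℤ) * W * W) + 24 * ((W : ℤ) * W * W * W) ≤ (W : ℤ)^6 := by
    have hw2 : (100 : ℤ) ≤ (W : ℤ) * W := by nlinarith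
    have hw4 : (0 : ℤ) ≤ (W : ℤ) * W * W * W := by positivity
    have hw3 : (W : ℤ) * W * W ≤ (W : ℤ) * W * W * W := by nlinarith [mul_pos (by linarith : (0:ℤ) < W) (by linarith : (0:ℤ) < W)]
    have hw1 : (W : ℤ) ≤ (W : ℤ) * W * W * W := by nlinarith [mul_pos (by linarith : (0:ℤ) < W) (by linarith : (0:ℤ) < W)]
    have e6 : (W : ℤ)^6 = ((W : ℤ) * W * W * W) * ((W : ℤ) * W) := by ring
    rw [e6]
    nlinarith
  have h8 : (W : ℤ)^6 ≤ ((W : ℤ) + 3)^6 := pow_le_pow_left₀ (by linarith) (by linarith) 6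
  have h9 : (((W + 3)^6 : ℕ) : ℤ) = ((W : ℤ) + 3)^6 := by push_cast; ring
  rw [h9]
  linarith

/-- The size estimate for the band about a line. -/
theorem line_band_bound (z0 v : GaussianInt) (hv : v ≠ 0) (D : ℝ) (hD : 1 ≤ D) (k : ℕ)
    (hkD1 : (k : ℝ) ≤ D + 1) (K W : ℕ) (M0 : ℤ) (hM0 : 0 ≤ M0)
    (hK : (K : ℤ) = k * (|v.re| + |v.im|))
    (hW1 : (K : ℤ) + M0 ≤ W) (hW2 : v.norm ≤ W) (hW3 : z0.norm ≤ W)
    (hW4 : |v.re| + |v.im| ≤ W) (hW5 : 10 ≤ W) (A C : ℤ)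
    (hA : |A| ≤ ((lineF z0 v ((K : ℤ) + M0) K W : ℤ) + ((K : ℤ) + M0)) * v.norm)
    (h : 80 * D * ((|v.re| + |v.im| : ℤ) : ℝ) * ((|C| : ℤ) : ℝ)
        * Real.log (((|C| : ℤ) : ℝ) + 2) ≤ Real.log (((|A| : ℤ) : ℝ) + 2)) :
    |C| ≤ W := by
  by_contra hcon
  have hCW : (W : ℤ) + 1 ≤ |C| := by omega
  have hCWR : (W : ℝ) + 1 ≤ ((|C| : ℤ) : ℝ) := by exact_mod_cast hCW
  have hWR : (10 : ℝ) ≤ (W : ℝ) := by exact_mod_cast hW5
  obtain ⟨s, hs⟩ : ∃ s : ℤ, s = |v.re| + |v.im| := ⟨_, rfl⟩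
  rw [← hs] at hK hW4 h
  have hs1 : 1 ≤ s := by rw [hs]; exact one_le_abs_re_add_abs_im hv
  have hs1R : (1 : ℝ) ≤ (s : ℝ) := by exact_mod_cast hs1
  set L : ℝ := Real.log ((W : ℝ) + 3) with hL
  have hLpos : 0 < L := Real.log_pos (by linarith)
  -- lower bound of the left side
  have hlogC : L ≤ Real.log (((|C| : ℤ) : ℝ) + 2) := Real.log_le_log (by linarith) (by linarith)
  have hlow : 80 * D * (s : ℝ) * ((W : ℝ) + 1) * L
      ≤ 80 * D * (s : ℝ) * ((|C| : ℤ) : ℝ) * Real.log (((|C| : ℤ) : ℝ) + 2) := by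
    have h1 : 0 ≤ 80 * D * (s : ℝ) := by positivity
    have h2 : ((W : ℝ) + 1) * L ≤ ((|C| : ℤ) : ℝ) * Real.log (((|C| : ℤ) : ℝ) + 2) :=
      mul_le_mul hCWR hlogC hLpos.le (by linarith)
    calc 80 * D * (s : ℝ) * ((W : ℝ) + 1) * L = 80 * D * (s : ℝ) * (((W : ℝ) + 1) * L) := by ring
      _ ≤ 80 * D * (s : ℝ) * (((|C| : ℤ) : ℝ) * Real.log (((|C| : ℤ) : ℝ) + 2)) :=
          mul_le_mul_of_nonneg_left h2 h1
      _ = _ := by ring
  -- the size of F
  have hK0 : (0 : ℤ) ≤ (K : ℤ) := Int.natCast_nonneg K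
  have hKW : K ≤ W := by
    have : (K : ℤ) ≤ (W : ℤ) := by linarith
    exact_mod_cast this
  obtain ⟨F, hF⟩ : ∃ F : ℕ, F = lineF z0 v ((K : ℤ) + M0) K W := ⟨_, rfl⟩
  rw [← hF] at hA
  have hFpos : 0 < F := by rw [hF]; exact lineF_pos _ _ _ _ _
  have hFle : F ≤ (((W + 3)^6)^2) ^ ((K + 1) * (2 * W + 1)) := by
    rw [hF]
    apply lineF_le
    intro a ha c hc
    constructor
    · exact offset_gfac_le z0 v K W _ (by linarith) hW1 hKW hW2 hW3 (by rw [← hs]; exact hW4)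
        hW5 a c ha hc
    · exact offset_gfac_le (-z0) v K W _ (by linarith) hW1 hKW hW2 (by rwa [gnorm_neg])
        (by rw [← hs]; exact hW4) hW5 a c ha hc
  have hFle' : F ≤ (W + 3) ^ (12 * ((K + 1) * (2 * W + 1))) := by
    refine le_trans hFle (le_of_eq ?_)
    rw [← pow_mul, ← pow_mul]; ring_nf
  have hFR : (F : ℝ) ≤ ((W : ℝ) + 3) ^ (12 * ((K + 1) * (2 * W + 1))) := by
    exact_mod_cast hFle'
  have hFRpos : (0 : ℝ) < (F : ℝ) := by exact_mod_cast hFpos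
  have hF1 : (1 : ℝ) ≤ (F : ℝ) := by exact_mod_cast hFpos
  have hlogF : Real.log (F : ℝ) ≤ ((12 * ((K + 1) * (2 * W + 1)) : ℕ) : ℝ) * L := by
    have := Real.log_le_log hFRpos hFR
    rwa [Real.log_pow] at this
  -- the size of |A| + 2
  have hNv1 : 1 ≤ v.norm := by
    have := GaussianInt.norm_pos.mpr hv
    omega
  have hAT : |A| ≤ ((F : ℤ) + W) * W := by
    refine le_trans hA ?_
    have hF0 : (0 : ℤ) ≤ (F : ℤ) := Int.natCast_nonneg F
    exact mul_le_mul (by linarith) hW2 (by linarith) (by linarith)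
  have hATR : ((|A| : ℤ) : ℝ) ≤ ((F : ℝ) + W) * W := by exact_mod_cast hAT
  have hA2 : ((|A| : ℤ) : ℝ) + 2 ≤ (F : ℝ) * ((W : ℝ) + 3)^2 := by
    have p1 : 0 ≤ ((F : ℝ) - 1) * ((W : ℝ) * (W : ℝ)) :=
      mul_nonneg (by linarith) (by positivity)
    have p2 : 0 ≤ (F : ℝ) * (W : ℝ) := by positivity
    have e1 : (F : ℝ) * ((W : ℝ) + 3)^2
        = ((F : ℝ) - 1) * ((W : ℝ) * (W : ℝ)) + (W : ℝ) * (W : ℝ) + 6 * ((F : ℝ) * (W : ℝ))
          + 9 * (F : ℝ) := by ring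
    have e2 : ((F : ℝ) + W) * W = (F : ℝ) * (W : ℝ) + (W : ℝ) * (W : ℝ) := by ring
    rw [e1]
    rw [e2] at hATR
    linarith
  have hA0 : (0 : ℝ) ≤ ((|A| : ℤ) : ℝ) := by exact_mod_cast abs_nonneg A
  have hup1 : Real.log (((|A| : ℤ) : ℝ) + 2) ≤ Real.log (F : ℝ) + 2 * L := by
    have := Real.log_le_log (by linarith) hA2
    rw [Real.log_mul (by positivity) (by positivity), Real.log_pow] at this
    simp only [Nat.cast_ofNat] at this
    linarith
  -- compare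
  have hKR : (K : ℝ) = (k : ℝ) * (s : ℝ) := by exact_mod_cast hK
  have hK2 : (K : ℝ) ≤ 2 * D * (s : ℝ) := by
    rw [hKR]
    have : (k : ℝ) ≤ 2 * D := by linarith
    exact mul_le_mul_of_nonneg_right this (by linarith)
  have e : ((12 * ((K + 1) * (2 * W + 1)) : ℕ) : ℝ) = 12 * (((K : ℝ) + 1) * (2 * (W : ℝ) + 1)) := by
    push_cast; ring
  rw [e] at hlogF
  have hDs : 1 ≤ D * (s : ℝ) := one_le_mul_of_one_le_of_one_le hD hs1R
  have hfin : 12 * (((K : ℝ) + 1) * (2 * (W : ℝ) + 1)) * L + 2 * L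
      < 80 * D * (s : ℝ) * ((W : ℝ) + 1) * L := by
    have h1 : 12 * (((K : ℝ) + 1) * (2 * (W : ℝ) + 1)) + 2
        < 80 * D * (s : ℝ) * ((W : ℝ) + 1) := by
      have hK0R : (0 : ℝ) ≤ (K : ℝ) := by positivity
      have q1 : ((K : ℝ) + 1) * (2 * (W : ℝ) + 1) ≤ (2 * D * (s : ℝ) + 1) * (2 * (W : ℝ) + 1) :=
        mul_le_mul_of_nonneg_right (by linarith) (by linarith)
      have q2 : 0 ≤ (D * (s : ℝ) - 1) * (W : ℝ) := mul_nonneg (by linarith) (by linarith)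
      have e3 : (2 * D * (s : ℝ) + 1) * (2 * (W : ℝ) + 1)
          = 4 * (D * (s : ℝ) * (W : ℝ)) + 2 * (D * (s : ℝ)) + 2 * (W : ℝ) + 1 := by ring
      have e4 : 80 * D * (s : ℝ) * ((W : ℝ) + 1)
          = 80 * (D * (s : ℝ) * (W : ℝ)) + 80 * (D * (s : ℝ)) := by ring
      have e5 : (D * (s : ℝ) - 1) * (W : ℝ) = D * (s : ℝ) * (W : ℝ) - (W : ℝ) := by ring
      rw [e3] at q1
      rw [e5] at q2
      rw [e4]
      linarith
    calc 12 * (((K : ℝ) + 1) * (2 * (W : ℝ) + 1)) * L + 2 * L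
        = (12 * (((K : ℝ) + 1) * (2 * (W : ℝ) + 1)) + 2) * L := by ring
      _ < 80 * D * (s : ℝ) * ((W : ℝ) + 1) * L := mul_lt_mul_of_pos_right h1 hLpos
  linarith

/-- an injective sequence in the band has unbounded along-coordinate -/
lemma exists_along_ge (z0 v : GaussianInt) (hv : v ≠ 0) (D : ℝ) (hD : 1 ≤ D)
    (z : ℕ → GaussianInt) (hinj : Function.Injective z)
    (hband : ∀ n, 80 * D * ((|v.re| + |v.im| : ℤ) : ℝ) * ((|((z n - z0) * star v).im| : ℤ) : ℝ)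
        * Real.log (((|((z n - z0) * star v).im| : ℤ) : ℝ) + 2)
        ≤ Real.log (((|((z n - z0) * star v).re| : ℤ) : ℝ) + 2)) (B : ℤ) :
    ∃ n, B ≤ |((z n - z0) * star v).re| := by
  by_contra hcon
  simp only [not_exists, not_le] at hcon
  have hs1 : 1 ≤ |v.re| + |v.im| := one_le_abs_re_add_abs_im hv
  have hs1R : (1 : ℝ) ≤ ((|v.re| + |v.im| : ℤ) : ℝ) := by exact_mod_cast hs1
  have hB0 : 0 < B := lt_of_le_of_lt (abs_nonneg _) (hcon 0)
  have hsub : Set.range z ⊆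
      {x : GaussianInt | |((x - z0) * star v).re| ≤ B + 1 ∧ |((x - z0) * star v).im| ≤ B + 1} := by
    rintro _ ⟨n, rfl⟩
    refine ⟨by linarith [hcon n], ?_⟩
    have h := hband n
    obtain ⟨c, hc⟩ : ∃ c : ℤ, c = |((z n - z0) * star v).im| := ⟨_, rfl⟩
    obtain ⟨a, ha⟩ : ∃ a : ℤ, a = |((z n - z0) * star v).re| := ⟨_, rfl⟩
    rw [← hc, ← ha] at h
    rw [← hc]
    have hc0 : 0 ≤ c := by rw [hc]; exact abs_nonneg _
    have ha0 : 0 ≤ a := by rw [ha]; exact abs_nonneg _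
    have haB : a < B := by rw [ha]; exact hcon n
    have hc0R : (0 : ℝ) ≤ (c : ℝ) := by exact_mod_cast hc0
    have ha0R : (0 : ℝ) ≤ (a : ℝ) := by exact_mod_cast ha0
    have haBR : (a : ℝ) ≤ (B : ℝ) := by exact_mod_cast haB.le
    have h1 : Real.log ((a : ℝ) + 2) ≤ (B : ℝ) + 1 := by
      have := Real.log_le_sub_one_of_pos (by linarith : (0 : ℝ) < (a : ℝ) + 2)
      linarith
    have h2 : (1 : ℝ) ≤ 80 * D * ((|v.re| + |v.im| : ℤ) : ℝ) * Real.log ((c : ℝ) + 2) := by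
      have hl2 : (0.6931471803 : ℝ) < Real.log 2 := Real.log_two_gt_d9
      have hl : Real.log 2 ≤ Real.log ((c : ℝ) + 2) := Real.log_le_log (by norm_num) (by linarith)
      have h3 : (1 : ℝ) ≤ D * ((|v.re| + |v.im| : ℤ) : ℝ) := one_le_mul_of_one_le_of_one_le hD hs1R
      have h4 : (1 / 2 : ℝ) ≤ Real.log ((c : ℝ) + 2) := by linarith
      have h5 : (1 / 2 : ℝ) ≤ D * ((|v.re| + |v.im| : ℤ) : ℝ) * Real.log ((c : ℝ) + 2) := by
        have := mul_le_mul h3 h4 (by norm_num) (by linarith)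
        linarith
      linarith
    have h6 : (c : ℝ) ≤ (B : ℝ) + 1 := by
      have h7 : (c : ℝ) * 1 ≤ (c : ℝ) * (80 * D * ((|v.re| + |v.im| : ℤ) : ℝ) * Real.log ((c : ℝ) + 2)) :=
        mul_le_mul_of_nonneg_left h2 hc0R
      have e : (c : ℝ) * (80 * D * ((|v.re| + |v.im| : ℤ) : ℝ) * Real.log ((c : ℝ) + 2))
          = 80 * D * ((|v.re| + |v.im| : ℤ) : ℝ) * (c : ℝ) * Real.log ((c : ℝ) + 2) := by ring
      rw [e] at h7
      linarith
    exact_mod_cast h6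
  exact (Set.infinite_range_of_injective hinj)
    (((finite_along_across_le z0 v hv (B + 1))).subset hsub)

/-- Core statement for a line through `z0` with direction `v ≠ 0`. -/
theorem no_walk_in_line_band (z0 v : GaussianInt) (hv : v ≠ 0) (D : ℝ) (hD : 1 ≤ D)
    (z : ℕ → GaussianInt) (hinj : Function.Injective z) (hirr : ∀ n, Irreducible (z n))
    (hstep : ∀ n, ‖GaussianInt.toComplex (z (n + 1)) - GaussianInt.toComplex (z n)‖ ≤ D)
    (hband : ∀ n, 80 * D * ((|v.re| + |v.im| : ℤ) : ℝ) * ((|((z n - z0) * star v).im| : ℤ) : ℝ)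
        * Real.log (((|((z n - z0) * star v).im| : ℤ) : ℝ) + 2)
        ≤ Real.log (((|((z n - z0) * star v).re| : ℤ) : ℝ) + 2)) : False := by
  -- the integer step bound
  obtain ⟨k, hk⟩ : ∃ k : ℕ, k = ⌈D⌉₊ := ⟨_, rfl⟩
  have hkD : D ≤ (k : ℝ) := by rw [hk]; exact Nat.le_ceil D
  have hkD1 : (k : ℝ) ≤ D + 1 := by
    rw [hk]; exact (Nat.ceil_lt_add_one (by linarith)).le
  have hs1 : 1 ≤ |v.re| + |v.im| := one_le_abs_re_add_abs_im hv
  obtain ⟨K, hK⟩ : ∃ K : ℕ, (K : ℤ) = k * (|v.re| + |v.im|) :=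
    ⟨((k : ℤ) * (|v.re| + |v.im|)).toNat, Int.toNat_of_nonneg (by positivity)⟩
  have hNv1 : 1 ≤ v.norm := by
    have := GaussianInt.norm_pos.mpr hv
    omega
  have hz0n := gnorm_nonneg z0
  -- parameters
  obtain ⟨M0, hM0def⟩ : ∃ M0 : ℤ, M0 = z0.norm + 6 + |((z 0 - z0) * star v).re| := ⟨_, rfl⟩
  have hA0 := abs_nonneg ((z 0 - z0) * star v).re
  have hM0 : 0 ≤ M0 := by rw [hM0def]; linarith
  have hM : 2 * z0.norm + 18 ≤ M0^2 := by
    have : z0.norm + 6 ≤ M0 := by rw [hM0def]; linarith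
    nlinarith
  have hK0 : (0 : ℤ) ≤ (K : ℤ) := Int.natCast_nonneg K
  obtain ⟨W, hW⟩ : ∃ W : ℕ, (W : ℤ) = (K : ℤ) + M0 + v.norm + (|v.re| + |v.im|) + 10 :=
    ⟨((K : ℤ) + M0 + v.norm + (|v.re| + |v.im|) + 10).toNat,
      Int.toNat_of_nonneg (by linarith)⟩
  have hW1 : (K : ℤ) + M0 ≤ W := by rw [hW]; linarith
  have hW2 : v.norm ≤ W := by rw [hW]; linarith
  have hW3 : z0.norm ≤ W := by rw [hW, hM0def]; linarith
  have hW4 : |v.re| + |v.im| ≤ W := by rw [hW]; linarith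
  have hW5 : 10 ≤ W := by
    have : (10 : ℤ) ≤ (W : ℤ) := by rw [hW]; linarith
    exact_mod_cast this
  obtain ⟨T, hT⟩ : ∃ T : ℤ,
      T = ((lineF z0 v ((K : ℤ) + M0) K W : ℤ) + ((K : ℤ) + M0)) * v.norm := ⟨_, rfl⟩
  have hF0 : (0 : ℤ) ≤ (lineF z0 v ((K : ℤ) + M0) K W : ℤ) := Int.natCast_nonneg _
  have hTbig : (K : ℤ) + M0 ≤ T := by
    rw [hT]
    have h1 : (K : ℤ) + M0 ≤ (lineF z0 v ((K : ℤ) + M0) K W : ℤ) + ((K : ℤ) + M0) := by linarith
    have h2 : (lineF z0 v ((K : ℤ) + M0) K W : ℤ) + ((K : ℤ) + M0)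
        ≤ ((lineF z0 v ((K : ℤ) + M0) K W : ℤ) + ((K : ℤ) + M0)) * v.norm :=
      le_mul_of_one_le_right (by linarith) hNv1
    linarith
  -- first time the along-coordinate reaches `T - K`
  have hex : ∃ n, T - K ≤ |((z n - z0) * star v).re| :=
    exists_along_ge z0 v hv D hD z hinj hband _
  classical
  obtain ⟨n, hn⟩ : ∃ n, n = Nat.find hex := ⟨_, rfl⟩
  have hn1 : T - K ≤ |((z n - z0) * star v).re| := by
    rw [hn]; exact Nat.find_spec hex
  have hn0 : n ≠ 0 := by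
    rintro rfl
    rw [hM0def] at hTbig
    linarith
  obtain ⟨n', rfl⟩ := Nat.exists_eq_succ_of_ne_zero hn0
  have hn' : |((z n' - z0) * star v).re| < T - K := by
    have := Nat.find_min hex (m := n') (by rw [← hn]; exact Nat.lt_succ_self n')
    exact not_le.mp this
  have hn2 : |((z (n' + 1) - z0) * star v).re| ≤ T := by
    have := abs_along_sub_le z0 v hkD (hstep n')
    rw [← hK] at this
    linarith
  -- the across-coordinate is at most `W`
  have hC : |((z (n' + 1) - z0) * star v).im| ≤ W := by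
    apply line_band_bound z0 v hv D hD k hkD1 K W M0 hM0 hK hW1 hW2 hW3 hW4 hW5
      ((z (n' + 1) - z0) * star v).re ((z (n' + 1) - z0) * star v).im
    · rw [← hT]; exact hn2
    · exact hband (n' + 1)
  -- the point lies in one of the two slabs
  by_cases hsign : 0 ≤ ((z (n' + 1) - z0) * star v).re
  · rw [abs_of_nonneg hsign] at hn1 hn2
    exact not_irreducible_pos_slab z0 v hv K W M0 hM0 hM (z (n' + 1))
      (by rw [← hT]; exact hn1) (by rw [← hT]; exact hn2) hC (hirr (n' + 1))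
  · have hneg : ((z (n' + 1) - z0) * star v).re < 0 := not_le.mp hsign
    rw [abs_of_neg hneg] at hn1 hn2
    exact not_irreducible_neg_slab z0 v hv K W M0 hM0 hM (z (n' + 1))
      (by rw [← hT]; linarith) (by rw [← hT]; linarith) hC (hirr (n' + 1))

end Vale.Agent.Lib.P015
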