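import Vale.Agent.Lib.P015.Chi

/-!
# Partial sums of `L(1, χ₄)` and of its logarithmic derivative series
-/

namespace Vale.Agent.Lib.P015

open Finset

/-- truncated sums of `∑ χ₄(m) / m` -/
noncomputable def Lsum (M : ℕ) : ℝ := ∑ m ∈ Ioc 0 M, chi4 m * (1 / (m : ℝ))

/-- truncated sums of `∑ χ₄(n) log n / n` -/
noncomputable def Ssum (N : ℕ) : ℝ := ∑ n ∈ Ioc 0 N, chi4 n * (Real.log n / (n : ℝ))

lemma inv_odd_antitone : Antitone (fun j : ℕ => 1 / ((2 * j + 1 : ℕ) : ℝ)) := by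
  intro a b hab
  apply one_div_le_one_div_of_le
  · positivity
  · exact_mod_cast (by omega : 2 * a + 1 ≤ 2 * b + 1)

lemma Lsum_eq (M : ℕ) :
    Lsum M = ∑ j ∈ range ((M + 1) / 2), (-1 : ℝ) ^ j * (1 / ((2 * j + 1 : ℕ) : ℝ)) := by
  unfold Lsum
  exact sum_chi4_eq (fun m => 1 / (m : ℝ)) M

lemma Lsum_le_one (M : ℕ) : Lsum M ≤ 1 := by
  rw [Lsum_eq]
  have h := (alternating_sum_bounds (fun j : ℕ => 1 / ((2 * j + 1 : ℕ) : ℝ)) inv_odd_antitone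
    (fun j => by positivity) ((M + 1) / 2)).2
  simpa using h

lemma Lsum_ge (M : ℕ) (hM : 1 ≤ M) : 2 / 3 ≤ Lsum M := by
  rw [Lsum_eq]
  obtain ⟨J, hJ⟩ : ∃ J, (M + 1) / 2 = J + 1 := ⟨(M + 1) / 2 - 1, by omega⟩
  rw [hJ, Finset.sum_range_succ']
  have h := (alternating_sum_bounds (fun j : ℕ => 1 / ((2 * (j + 1) + 1 : ℕ) : ℝ))
    (fun a b hab => inv_odd_antitone (Nat.succ_le_succ hab)) (fun j => by positivity) J).2
  have e : ∑ i ∈ range J, (-1 : ℝ) ^ (i + 1) * (1 / ((2 * (i + 1) + 1 : ℕ) : ℝ))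
      = - ∑ i ∈ range J, (-1 : ℝ) ^ i * (1 / ((2 * (i + 1) + 1 : ℕ) : ℝ)) := by
    rw [← Finset.sum_neg_distrib]
    refine Finset.sum_congr rfl fun i _ => ?_
    rw [pow_succ]; ring
  rw [e]
  norm_num at h ⊢
  linarith

lemma Lsum_tail (M M' : ℕ) (h : M ≤ M') : |Lsum M' - Lsum M| ≤ 1 / ((M : ℝ) + 1) := by
  rw [Lsum_eq, Lsum_eq]
  have h1 : (M + 1) / 2 ≤ (M' + 1) / 2 := Nat.div_le_div_right (by omega)
  refine le_trans (alternating_tail_abs_le (fun j : ℕ => 1 / ((2 * j + 1 : ℕ) : ℝ))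
    inv_odd_antitone (fun j => by positivity) _ _ h1) ?_
  apply one_div_le_one_div_of_le
  · positivity
  · have : M + 1 ≤ 2 * ((M + 1) / 2) + 1 := by omega
    exact_mod_cast this

lemma log_div_odd_antitone :
    Antitone (fun j : ℕ => Real.log ((2 * (j + 1) + 1 : ℕ) : ℝ) / ((2 * (j + 1) + 1 : ℕ) : ℝ)) := by
  intro a b hab
  have he : Real.exp 1 ≤ 3 := by
    have := Real.exp_one_lt_d9
    linarith
  have ha : (3 : ℝ) ≤ ((2 * (a + 1) + 1 : ℕ) : ℝ) := by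
    exact_mod_cast (by omega : 3 ≤ 2 * (a + 1) + 1)
  have hb : (3 : ℝ) ≤ ((2 * (b + 1) + 1 : ℕ) : ℝ) := by
    exact_mod_cast (by omega : 3 ≤ 2 * (b + 1) + 1)
  have hab' : ((2 * (a + 1) + 1 : ℕ) : ℝ) ≤ ((2 * (b + 1) + 1 : ℕ) : ℝ) := by
    exact_mod_cast (by omega : 2 * (a + 1) + 1 ≤ 2 * (b + 1) + 1)
  exact Real.log_div_self_antitoneOn (Set.mem_Ici.mpr (le_trans he ha))
    (Set.mem_Ici.mpr (le_trans he hb)) hab'

lemma Ssum_abs_le (N : ℕ) : |Ssum N| ≤ 2 / 3 := by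
  unfold Ssum
  rw [sum_chi4_eq (fun n => Real.log n / (n : ℝ)) N]
  rcases Nat.eq_zero_or_pos ((N + 1) / 2) with h0 | hpos
  · rw [h0]; norm_num
  obtain ⟨J, hJ⟩ : ∃ J, (N + 1) / 2 = J + 1 := ⟨(N + 1) / 2 - 1, by omega⟩
  rw [hJ, Finset.sum_range_succ']
  have hb := alternating_sum_bounds
    (fun j : ℕ => Real.log ((2 * (j + 1) + 1 : ℕ) : ℝ) / ((2 * (j + 1) + 1 : ℕ) : ℝ))
    log_div_odd_antitone
    (fun j => div_nonneg (Real.log_nonneg (by exact_mod_cast (by omega : 1 ≤ 2 * (j + 1) + 1)))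
      (by positivity)) J
  have e : ∑ i ∈ range J, (-1 : ℝ) ^ (i + 1)
        * (Real.log ((2 * (i + 1) + 1 : ℕ) : ℝ) / ((2 * (i + 1) + 1 : ℕ) : ℝ))
      = - ∑ i ∈ range J, (-1 : ℝ) ^ i
        * (Real.log ((2 * (i + 1) + 1 : ℕ) : ℝ) / ((2 * (i + 1) + 1 : ℕ) : ℝ)) := by
    rw [← Finset.sum_neg_distrib]
    refine Finset.sum_congr rfl fun i _ => ?_
    rw [pow_succ]; ring
  rw [e]
  have hl3 : Real.log 3 ≤ 2 := by
    have := Real.log_le_sub_one_of_pos (by norm_num : (0 : ℝ) < 3)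
    linarith
  have h0' : Real.log ((2 * 0 + 1 : ℕ) : ℝ) = 0 := by norm_num
  have hu0 : Real.log ((2 * (0 + 1) + 1 : ℕ) : ℝ) / ((2 * (0 + 1) + 1 : ℕ) : ℝ) ≤ 2 / 3 := by
    norm_num
    linarith
  rw [h0']
  simp only [pow_zero, zero_div, mul_zero, add_zero]
  rw [abs_neg, abs_le]
  constructor
  · linarith [hb.1]
  · exact le_trans hb.2 hu0

end Vale.Agent.Lib.P015
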