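import Vale.Agent.Lib.P015.Lsum

/-!
# Mertens-type estimates for the von Mangoldt function twisted by `χ₄`
-/

namespace Vale.Agent.Lib.P015

open Finset ArithmeticFunction

/-- `∑_{d ≤ N} Λ(d) / d` -/
noncomputable def Msum (N : ℕ) : ℝ := ∑ d ∈ Ioc 0 N, vonMangoldt d / (d : ℝ)

/-- `∑_{d ≤ N} χ₄(d) Λ(d) / d` -/
noncomputable def Tsum (N : ℕ) : ℝ := ∑ d ∈ Ioc 0 N, chi4 d * (vonMangoldt d / (d : ℝ))

/-- `log N! = ∑_{d ≤ N} Λ(d) ⌊N / d⌋` -/
lemma sum_log_eq (N : ℕ) :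
    ∑ n ∈ Ioc 0 N, Real.log (n : ℝ) = ∑ d ∈ Ioc 0 N, vonMangoldt d * ((N / d : ℕ) : ℝ) := by
  have h := sum_Ioc_mul_zeta_eq_sum (R := ℝ) vonMangoldt N
  rw [vonMangoldt_mul_zeta] at h
  rw [← h]
  exact Finset.sum_congr rfl fun n _ => log_apply.symm

lemma sum_log_le (N : ℕ) : ∑ n ∈ Ioc 0 N, Real.log (n : ℝ) ≤ N * Real.log N := by
  calc ∑ n ∈ Ioc 0 N, Real.log (n : ℝ) ≤ ∑ _n ∈ Ioc 0 N, Real.log (N : ℝ) := by
        apply Finset.sum_le_sum
        intro n hn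
        rw [Finset.mem_Ioc] at hn
        exact Real.log_le_log (by exact_mod_cast hn.1) (by exact_mod_cast hn.2)
    _ = N * Real.log N := by simp

lemma sum_log_ge (N : ℕ) : N * Real.log N - N ≤ ∑ n ∈ Ioc 0 N, Real.log (n : ℝ) := by
  induction N with
  | zero => simp
  | succ N ih =>
    rw [Finset.sum_Ioc_succ_top (Nat.zero_le N)]
    rcases Nat.eq_zero_or_pos N with h0 | hpos
    · subst h0; simp
    · have hN : (0 : ℝ) < (N : ℝ) := by exact_mod_cast hpos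
      have h1 : Real.log ((N + 1 : ℕ) : ℝ) - Real.log (N : ℝ) ≤ 1 / (N : ℝ) := by
        rw [← Real.log_div (by positivity) (by positivity)]
        have h2 : ((N + 1 : ℕ) : ℝ) / (N : ℝ) = 1 + 1 / (N : ℝ) := by
          push_cast; field_simp
        rw [h2]
        have := Real.log_le_sub_one_of_pos (by positivity : (0 : ℝ) < 1 + 1 / (N : ℝ))
        linarith
      have h3 : (N : ℝ) * (Real.log ((N + 1 : ℕ) : ℝ) - Real.log (N : ℝ)) ≤ 1 := by
        calc (N : ℝ) * (Real.log ((N + 1 : ℕ) : ℝ) - Real.log (N : ℝ))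
            ≤ (N : ℝ) * (1 / (N : ℝ)) := mul_le_mul_of_nonneg_left h1 hN.le
          _ = 1 := by field_simp
      push_cast at h3 ih ⊢
      nlinarith

lemma psi_natCast_eq (N : ℕ) : Chebyshev.psi (N : ℝ) = ∑ d ∈ Ioc 0 N, vonMangoldt d := by
  unfold Chebyshev.psi
  rw [Nat.floor_natCast]

lemma sum_vonMangoldt_le (N : ℕ) : ∑ d ∈ Ioc 0 N, vonMangoldt d ≤ 6 * (N : ℝ) := by
  rw [← psi_natCast_eq]
  have h := Chebyshev.psi_le_const_mul_self (x := (N : ℝ)) (by positivity)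
  have hl4 : Real.log 4 ≤ 2 := by
    have h2 : Real.log 4 = 2 * Real.log 2 := by
      rw [show (4 : ℝ) = 2 ^ 2 by norm_num, Real.log_pow]; norm_num
    have := Real.log_two_lt_d9
    linarith
  have hN : (0 : ℝ) ≤ (N : ℝ) := by positivity
  nlinarith

lemma Msum_ge (N : ℕ) (hN : 1 ≤ N) : Real.log N - 1 ≤ Msum N := by
  have hNR : (0 : ℝ) < (N : ℝ) := by exact_mod_cast hN
  have h1 : ∑ d ∈ Ioc 0 N, vonMangoldt d * ((N / d : ℕ) : ℝ) ≤ (N : ℝ) * Msum N := by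
    unfold Msum
    rw [Finset.mul_sum]
    apply Finset.sum_le_sum
    intro d hd
    rw [Finset.mem_Ioc] at hd
    have hd0 : (0 : ℝ) < (d : ℝ) := by exact_mod_cast hd.1
    have h2 : ((N / d : ℕ) : ℝ) ≤ (N : ℝ) / (d : ℝ) := Nat.cast_div_le
    calc vonMangoldt d * ((N / d : ℕ) : ℝ) ≤ vonMangoldt d * ((N : ℝ) / (d : ℝ)) :=
          mul_le_mul_of_nonneg_left h2 vonMangoldt_nonneg
      _ = (N : ℝ) * (vonMangoldt d / (d : ℝ)) := by ring
  have h3 := sum_log_ge N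
  rw [sum_log_eq] at h3
  have h4 : (N : ℝ) * Real.log N - N ≤ (N : ℝ) * Msum N := le_trans h3 h1
  have h5 : (N : ℝ) * (Real.log N - 1) ≤ (N : ℝ) * Msum N := by linarith
  exact le_of_mul_le_mul_left h5 hNR

lemma Msum_le (N : ℕ) (hN : 1 ≤ N) : Msum N ≤ Real.log N + 6 := by
  have hNR : (0 : ℝ) < (N : ℝ) := by exact_mod_cast hN
  have h1 : (N : ℝ) * Msum N - ∑ d ∈ Ioc 0 N, vonMangoldt d
      ≤ ∑ d ∈ Ioc 0 N, vonMangoldt d * ((N / d : ℕ) : ℝ) := by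
    unfold Msum
    rw [Finset.mul_sum, ← Finset.sum_sub_distrib]
    apply Finset.sum_le_sum
    intro d hd
    rw [Finset.mem_Ioc] at hd
    have hd0 : (0 : ℝ) < (d : ℝ) := by exact_mod_cast hd.1
    have h2 : (N : ℝ) / (d : ℝ) - 1 ≤ ((N / d : ℕ) : ℝ) := by
      have := Nat.lt_mul_div_succ N hd.1
      have h3 : (N : ℝ) < (d : ℝ) * (((N / d : ℕ) : ℝ) + 1) := by exact_mod_cast this
      rw [sub_le_iff_le_add, div_le_iff₀ hd0]
      linarith
    calc (N : ℝ) * (vonMangoldt d / (d : ℝ)) - vonMangoldt d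
        = vonMangoldt d * ((N : ℝ) / (d : ℝ) - 1) := by ring
      _ ≤ vonMangoldt d * ((N / d : ℕ) : ℝ) := mul_le_mul_of_nonneg_left h2 vonMangoldt_nonneg
  have h3 := sum_log_le N
  rw [sum_log_eq] at h3
  have h4 := sum_vonMangoldt_le N
  have h5 : (N : ℝ) * Msum N ≤ (N : ℝ) * (Real.log N + 6) := by linarith
  exact le_of_mul_le_mul_left h5 hNR

end Vale.Agent.Lib.P015
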