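import Vale.Agent.Lib.P015.Slab

/-!
# Bounded-step walks on Gaussian integers: auxiliary facts
-/

namespace Vale.Agent.Lib.P015

/-- distinct Gaussian integers are at distance at least one -/
lemma one_le_dist_of_ne {x y : GaussianInt} (h : x ≠ y) :
    1 ≤ ‖GaussianInt.toComplex x - GaussianInt.toComplex y‖ := by
  have h1 : x - y ≠ 0 := sub_ne_zero.mpr h
  have h2 : 0 < (x - y).norm := GaussianInt.norm_pos.mpr h1
  have h3 : (1 : ℝ) ≤ ((x - y).norm : ℝ) := by exact_mod_cast h2
  rw [GaussianInt.intCast_real_norm, Complex.normSq_eq_norm_sq] at h3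
  rw [← GaussianInt.toComplex_sub]
  have h4 := norm_nonneg (GaussianInt.toComplex (x - y))
  nlinarith

/-- coordinates move by at most `k` in a step of length at most `D ≤ k` -/
lemma abs_re_sub_le {x y : GaussianInt} {D : ℝ} {k : ℕ} (hk : D ≤ k)
    (h : ‖GaussianInt.toComplex x - GaussianInt.toComplex y‖ ≤ D) :
    |x.re - y.re| ≤ k := by
  have h1 := Complex.abs_re_le_norm (GaussianInt.toComplex x - GaussianInt.toComplex y)
  have h2 : (GaussianInt.toComplex x - GaussianInt.toComplex y).re = ((x.re - y.re : ℤ) : ℝ) := by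
    rw [Complex.sub_re, ← GaussianInt.intCast_re, ← GaussianInt.intCast_re]; push_cast; ring
  rw [h2] at h1
  have h3 : ((|x.re - y.re| : ℤ) : ℝ) ≤ (k : ℝ) := by
    rw [Int.cast_abs]
    linarith
  exact_mod_cast h3

lemma abs_im_sub_le {x y : GaussianInt} {D : ℝ} {k : ℕ} (hk : D ≤ k)
    (h : ‖GaussianInt.toComplex x - GaussianInt.toComplex y‖ ≤ D) :
    |x.im - y.im| ≤ k := by
  have h1 := Complex.abs_im_le_norm (GaussianInt.toComplex x - GaussianInt.toComplex y)
  have h2 : (GaussianInt.toComplex x - GaussianInt.toComplex y).im = ((x.im - y.im : ℤ) : ℝ) := by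
    rw [Complex.sub_im, ← GaussianInt.intCast_im, ← GaussianInt.intCast_im]; push_cast; ring
  rw [h2] at h1
  have h3 : ((|x.im - y.im| : ℤ) : ℝ) ≤ (k : ℝ) := by
    rw [Int.cast_abs]
    linarith
  exact_mod_cast h3

/-- the sup-norm grows by at most `k` in such a step -/
lemma max_abs_le_add {x y : GaussianInt} {D : ℝ} {k : ℕ} (hk : D ≤ k)
    (h : ‖GaussianInt.toComplex x - GaussianInt.toComplex y‖ ≤ D) :
    max |x.re| |x.im| ≤ max |y.re| |y.im| + k := by
  have h1 := abs_re_sub_le hk h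
  have h2 := abs_im_sub_le hk h
  have h3 : |x.re| ≤ |y.re| + k := by
    have := abs_sub_abs_le_abs_sub x.re y.re
    linarith
  have h4 : |x.im| ≤ |y.im| + k := by
    have := abs_sub_abs_le_abs_sub x.im y.im
    linarith
  have h5 := le_max_left |y.re| |y.im|
  have h6 := le_max_right |y.re| |y.im|
  exact max_le (by linarith) (by linarith)

/-- the set of Gaussian integers with bounded sup-norm is finite -/
lemma finite_max_abs_le (B : ℤ) : {x : GaussianInt | max |x.re| |x.im| ≤ B}.Finite := by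
  have hfin : ((fun p : ℤ × ℤ => (⟨p.1, p.2⟩ : GaussianInt)) ''
      (Set.Icc (-B) B ×ˢ Set.Icc (-B) B)).Finite :=
    Set.Finite.image _ ((Set.finite_Icc _ _).prod (Set.finite_Icc _ _))
  apply hfin.subset
  intro x hx
  change max |x.re| |x.im| ≤ B at hx
  have h1 : |x.re| ≤ B := le_trans (le_max_left _ _) hx
  have h2 : |x.im| ≤ B := le_trans (le_max_right _ _) hx
  refine ⟨(x.re, x.im), ⟨abs_le.mp h1, abs_le.mp h2⟩, ?_⟩
  apply Zsqrtd.ext <;> rfl

/-- an injective sequence of Gaussian integers has unbounded sup-norm -/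
lemma exists_max_abs_ge {z : ℕ → GaussianInt} (hz : Function.Injective z) (B : ℤ) :
    ∃ n, B ≤ max |(z n).re| |(z n).im| := by
  by_contra hcon
  simp only [not_exists, not_le] at hcon
  have hsub : Set.range z ⊆ {x : GaussianInt | max |x.re| |x.im| ≤ B} := by
    rintro _ ⟨n, rfl⟩
    exact le_of_lt (hcon n)
  exact (Set.infinite_range_of_injective hz) ((finite_max_abs_le B).subset hsub)

/-- Core statement: a sequence of Gaussian primes with steps at most `D` (where `D ≥ 1`)
that starts somewhere and stays in the logarithmic band cannot be injective. -/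
theorem no_walk_in_band (D : ℝ) (hD : 1 ≤ D) (z : ℕ → GaussianInt)
    (hinj : Function.Injective z) (hprime : ∀ n, Prime (z n))
    (hstep : ∀ n, ‖GaussianInt.toComplex (z (n+1)) - GaussianInt.toComplex (z n)‖ ≤ D)
    (hband : ∀ n, 30 * D * ((min |(z n).re| |(z n).im| : ℤ) : ℝ)
              * Real.log (((min |(z n).re| |(z n).im| : ℤ) : ℝ) + 2)
            ≤ Real.log (((max |(z n).re| |(z n).im| : ℤ) : ℝ) + 2)) : False := by
  -- the integer step bound
  obtain ⟨k, hk⟩ : ∃ k : ℕ, k = ⌈D⌉₊ := ⟨_, rfl⟩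
  have hkD : D ≤ (k : ℝ) := by rw [hk]; exact Nat.le_ceil D
  have hkD1 : (k : ℝ) ≤ D + 1 := by
    rw [hk]; exact (Nat.ceil_lt_add_one (by linarith)).le
  have hk1 : 1 ≤ k := by
    have : (1 : ℝ) ≤ (k : ℝ) := le_trans hD hkD
    exact_mod_cast this
  -- the height of the slab
  have hM0 : 0 ≤ max |(z 0).re| |(z 0).im| := le_trans (abs_nonneg _) (le_max_left _ _)
  obtain ⟨w, hw⟩ : ∃ w : ℕ, w = (max |(z 0).re| |(z 0).im|).toNat + k + 2 := ⟨_, rfl⟩
  have hwk : k ≤ w := by omega
  have hw2 : 2 ≤ w := by omega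
  have hwM : max |(z 0).re| |(z 0).im| + k + 2 = (w : ℤ) := by
    rw [hw]; push_cast; rw [Int.toNat_of_nonneg hM0]
  have hFw : w^2 ≤ slabF k w := sq_le_slabF k w (by omega)
  have hF3 : 3 ≤ slabF k w := by nlinarith
  have hFw' : w ≤ slabF k w := by nlinarith
  have hcw : (w : ℤ) ≤ (slabF k w : ℤ)^3 := by
    have h1 : (w : ℤ) ≤ (slabF k w : ℤ) := by exact_mod_cast hFw'
    have h2 : (1 : ℤ) ≤ (slabF k w : ℤ) := by linarith [(by exact_mod_cast hF3 : (3 : ℤ) ≤ (slabF k w : ℤ))]
    nlinarith [sq_nonneg ((slabF k w : ℤ)), mul_pos (by linarith : (0:ℤ) < (slabF k w : ℤ)) (by linarith : (0:ℤ) < (slabF k w : ℤ))]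
  -- first time the sup-norm reaches `F^3 - k`
  have hex : ∃ n, (slabF k w : ℤ)^3 - k ≤ max |(z n).re| |(z n).im| :=
    exists_max_abs_ge hinj _
  classical
  obtain ⟨n, hn⟩ : ∃ n, n = Nat.find hex := ⟨_, rfl⟩
  have hn1 : (slabF k w : ℤ)^3 - k ≤ max |(z n).re| |(z n).im| := by
    rw [hn]; exact Nat.find_spec hex
  have hn0 : n ≠ 0 := by
    rintro rfl
    linarith
  obtain ⟨n', rfl⟩ := Nat.exists_eq_succ_of_ne_zero hn0
  have hn' : max |(z n').re| |(z n').im| < (slabF k w : ℤ)^3 - k := by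
    have := Nat.find_min hex (m := n') (by rw [← hn]; exact Nat.lt_succ_self n')
    exact not_le.mp this
  have hn2 : max |(z (n'+1)).re| |(z (n'+1)).im| ≤ (slabF k w : ℤ)^3 := by
    have := max_abs_le_add hkD (hstep n')
    linarith
  -- the smaller coordinate is at most `w`
  have hmin0 : 0 ≤ min |(z (n'+1)).re| |(z (n'+1)).im| := le_min (abs_nonneg _) (abs_nonneg _)
  have hmax0 : 0 ≤ max |(z (n'+1)).re| |(z (n'+1)).im| :=
    le_trans (abs_nonneg _) (le_max_left _ _)
  have hmin : min |(z (n'+1)).re| |(z (n'+1)).im| ≤ w :=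
    band_bound D hD k w hkD1 hk1 hwk hw2 _ _ hmin0 hmax0 hn2 (hband (n'+1))
  exact not_prime_of_max_min k w hF3 (z (n'+1)) hn1 hn2 hmin (hprime (n'+1))

end Vale.Agent.Lib.P015
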