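import Vale.Agent.Lib.P015.Sieve
import Vale.Agent.Lib.P015.Walk

/-!
# Moats of composite Gaussian integers
-/

namespace Vale.Agent.Lib.P015

open Finset

/-- If `u² + v² = p` is prime in `ℤ`, `N(z) = p m` with `m > 1`, and `p ∣ Re (z (u - v i))`,
then `u + v i` is a proper factor of `z`. -/
lemma not_irreducible_of_factor (z : GaussianInt) (u v p m : ℤ) (hp1 : 1 < p)
    (huv : u ^ 2 + v ^ 2 = p) (hm : z.re ^ 2 + z.im ^ 2 = p * m) (hm1 : 1 < m)
    (hA : p ∣ z.re * u + z.im * v) : ¬ Irreducible z := by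
  have hp0 : p ≠ 0 := by omega
  obtain ⟨A1, hA1⟩ := hA
  -- the imaginary part is divisible as well
  have hC : p ∣ z.im * u - z.re * v := by
    have h1 : p ^ 2 ∣ (z.im * u - z.re * v) ^ 2 := by
      refine ⟨m - A1 ^ 2, ?_⟩
      have h2 : (z.re * u + z.im * v) ^ 2 + (z.im * u - z.re * v) ^ 2
          = (z.re ^ 2 + z.im ^ 2) * (u ^ 2 + v ^ 2) := by ring
      rw [hA1, hm, huv] at h2
      linear_combination h2
    exact (Int.pow_dvd_pow_iff two_ne_zero).mp h1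
  obtain ⟨C1, hC1⟩ := hC
  have hre : z.re = u * A1 - v * C1 := by
    apply mul_left_cancel₀ hp0
    have e : p * (u * A1 - v * C1) = u * (p * A1) - v * (p * C1) := by ring
    rw [e, ← hA1, ← hC1, ← huv]
    ring
  have him : z.im = u * C1 + v * A1 := by
    apply mul_left_cancel₀ hp0
    have e : p * (u * C1 + v * A1) = u * (p * C1) + v * (p * A1) := by ring
    rw [e, ← hA1, ← hC1, ← huv]
    ring
  have hz : z = (⟨u, v⟩ : GaussianInt) * ⟨A1, C1⟩ := mk_eq_mul_of hre him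
  have hnorm : A1 ^ 2 + C1 ^ 2 = m := by
    apply mul_left_cancel₀ hp0
    rw [← hm, hre, him, ← huv]
    ring
  intro hirr
  rw [hz] at hirr
  rcases hirr.isUnit_or_isUnit rfl with h | h
  · rw [isUnit_iff_norm_eq_one, Zsqrtd.norm_def] at h
    have : u ^ 2 + v ^ 2 = 1 := by
      have e : u * u - -1 * v * v = u ^ 2 + v ^ 2 := by ring
      change u * u - -1 * v * v = 1 at h
      rw [← e]; exact h
    omega
  · rw [isUnit_iff_norm_eq_one, Zsqrtd.norm_def] at h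
    have : A1 ^ 2 + C1 ^ 2 = 1 := by
      have e : A1 * A1 - -1 * C1 * C1 = A1 ^ 2 + C1 ^ 2 := by ring
      change A1 * A1 - -1 * C1 * C1 = 1 at h
      rw [← e]; exact h
    omega

/-- A Gaussian integer whose norm is a proper multiple of a prime `p ≡ 1 (mod 4)` is not
irreducible. -/
theorem not_irreducible_of_split_dvd (z : GaussianInt) (p : ℕ) (hp : p.Prime) (h4 : p % 4 = 1)
    (hdvd : (p : ℤ) ∣ z.re ^ 2 + z.im ^ 2) (hlt : (p : ℤ) < z.re ^ 2 + z.im ^ 2) :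
    ¬ Irreducible z := by
  have hfact : Fact p.Prime := ⟨hp⟩
  obtain ⟨u, v, huv⟩ := Nat.Prime.sq_add_sq (p := p) (by omega)
  have huvZ : (u : ℤ) ^ 2 + (v : ℤ) ^ 2 = (p : ℤ) := by exact_mod_cast huv
  have hpZ : Prime (p : ℤ) := Nat.prime_iff_prime_int.mp hp
  have hp1 : (1 : ℤ) < (p : ℤ) := by exact_mod_cast hp.one_lt
  obtain ⟨m, hm⟩ := hdvd
  have hm1 : 1 < m := by
    rw [hm] at hlt
    by_contra hcon
    have hm' : m ≤ 1 := by omega
    nlinarith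
  have hprod : (p : ℤ) ∣ (z.re * u + z.im * v) * (z.re * u + z.im * (-(v : ℤ))) := by
    refine ⟨z.re ^ 2 - (v : ℤ) ^ 2 * m, ?_⟩
    linear_combination (z.re ^ 2) * huvZ - (v : ℤ) ^ 2 * hm
  rcases hpZ.dvd_or_dvd hprod with h | h
  · exact not_irreducible_of_factor z u v p m hp1 huvZ hm hm1 h
  · exact not_irreducible_of_factor z u (-(v : ℤ)) p m hp1 (by rw [neg_sq]; exact huvZ)
      hm hm1 h

/-- The Chinese remainder theorem for residues modulo distinct primes. -/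
lemma exists_crt (T : Finset ℕ) (hT : ∀ p ∈ T, p.Prime) (r : ℕ → ℕ) :
    ∃ c0 : ℕ, c0 < ∏ p ∈ T, p ∧ ∀ p ∈ T, c0 ≡ r p [MOD p] := by
  have hs : ∀ p ∈ T, (id p : ℕ) ≠ 0 := fun p hp => (hT p hp).ne_zero
  have hpp : Set.Pairwise (T : Set ℕ) (Function.onFun Nat.Coprime id) := by
    intro p hp q hq hpq
    exact (Nat.coprime_primes (hT p hp) (hT q hq)).mpr hpq
  refine ⟨Nat.chineseRemainderOfFinset r id T hs hpp, ?_, ?_⟩
  · have := Nat.chineseRemainderOfFinset_lt_prod r id hs hpp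
    simpa using this
  · intro p hp
    exact (Nat.chineseRemainderOfFinset r id T hs hpp).2 p hp

/-- A moat: all Gaussian integers `c + a + b i` with `0 ≤ a ≤ k`, `|b| ≤ w` fail to be
irreducible, with `c` of controlled size. -/
theorem exists_moat (k w y Y : ℕ) (hyY : y ≤ Y)
    (hcard : ((k : ℝ) + 1) * (3 * (w : ℝ) * ∏ p ∈ splitPrimes 0 y, (1 - 2 / (p : ℝ)))
      + ((k : ℝ) + 1) ≤ ((splitPrimes y Y).card : ℝ)) (M : ℕ) :
    ∃ c : ℕ, M ≤ c ∧ c ≤ (M + 2) * 4 ^ Y ∧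
      ∀ a : ℕ, a ≤ k → ∀ b : ℤ, |b| ≤ (w : ℤ) →
        ¬ Irreducible (⟨((c + a : ℕ) : ℤ), b⟩ : GaussianInt) := by
  obtain ⟨r, hr⟩ := exists_sieve_residues k w y Y hyY hcard
  have hT : ∀ p ∈ splitPrimes 0 Y, p.Prime := fun p hp => (mem_splitPrimes.mp hp).2.1
  obtain ⟨c0, hc0lt, hc0⟩ := exists_crt (splitPrimes 0 Y) hT r
  obtain ⟨Q, hQ⟩ : ∃ Q : ℕ, Q = ∏ p ∈ splitPrimes 0 Y, p := ⟨_, rfl⟩
  have hQpos : 0 < Q := by
    rw [hQ]; exact Finset.prod_pos fun p hp => (hT p hp).pos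
  have hQle : Q ≤ 4 ^ Y := by rw [hQ]; exact prod_split_le_four_pow Y
  rw [← hQ] at hc0lt
  refine ⟨c0 + (M + 1) * Q, ?_, ?_, ?_⟩
  · nlinarith
  · calc c0 + (M + 1) * Q ≤ Q + (M + 1) * Q := by omega
      _ = (M + 2) * Q := by ring
      _ ≤ (M + 2) * 4 ^ Y := Nat.mul_le_mul_left _ hQle
  · intro a ha b hb
    have hn : b.natAbs ≤ w := by
      have : (b.natAbs : ℤ) ≤ (w : ℤ) := by rw [Int.natCast_natAbs]; exact hb
      exact_mod_cast this
    obtain ⟨p, hp, hk⟩ := hr a ha b.natAbs hn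
    have hpp := mem_splitPrimes.mp hp
    have hpQ : p ∣ Q := by rw [hQ]; exact Finset.dvd_prod_of_mem _ hp
    have hple : p ≤ Q := Nat.le_of_dvd hQpos hpQ
    have hcong : c0 + (M + 1) * Q ≡ r p [MOD p] := by
      have h1 : c0 + (M + 1) * Q ≡ c0 + 0 [MOD p] := by
        apply Nat.ModEq.add_left
        exact (Nat.modEq_zero_iff_dvd.mpr (Dvd.dvd.mul_left hpQ _))
      rw [add_zero] at h1
      exact h1.trans (hc0 p hp)
    have hk' : kills p (c0 + (M + 1) * Q) (a, b.natAbs) := (kills_congr hcong _).mpr hk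
    unfold kills at hk'
    have h5 : 5 ≤ p := five_le_of_split hpp.2.1 hpp.2.2
    have hcQ : Q ≤ c0 + (M + 1) * Q := by nlinarith
    apply not_irreducible_of_split_dvd _ p hpp.2.1 hpp.2.2
    · have h1 : ((p : ℕ) : ℤ) ∣ (((c0 + (M + 1) * Q + a) ^ 2 + b.natAbs ^ 2 : ℕ) : ℤ) :=
        Int.natCast_dvd_natCast.mpr hk'
      have h2 : (((c0 + (M + 1) * Q + a) ^ 2 + b.natAbs ^ 2 : ℕ) : ℤ)
          = ((c0 + (M + 1) * Q + a : ℕ) : ℤ) ^ 2 + b ^ 2 := by
        push_cast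
        rw [sq_abs]
      rw [h2] at h1
      exact h1
    · have h1 : (p : ℤ) ≤ ((c0 + (M + 1) * Q + a : ℕ) : ℤ) := by
        exact_mod_cast (by omega : p ≤ c0 + (M + 1) * Q + a)
      have h2 : (5 : ℤ) ≤ (p : ℤ) := by exact_mod_cast h5
      change (p : ℤ) < ((c0 + (M + 1) * Q + a : ℕ) : ℤ) ^ 2 + b ^ 2
      nlinarith [sq_nonneg b]

end Vale.Agent.Lib.P015
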