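import Vale.Agent.Lib.P015.Moat

/-!
# Choice of parameters: moats across a strip of logarithmic height
-/

namespace Vale.Agent.Lib.P015

open Finset

/-- the constant in the Mertens product bound -/
noncomputable def C3 : ℝ := Real.exp (20 / Real.log 2)

/-- the ratio of the prime ranges -/
noncomputable def Bc : ℕ := ⌈Real.exp 42⌉₊

/-- the sieving range is `N9 (k + 1) w` -/
noncomputable def N9 : ℕ := ⌈6 * C3⌉₊ + 6

/-- the final constant -/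
noncomputable def K0 : ℝ := 4 + 4 * (Bc : ℝ) * (N9 : ℝ)

lemma C3_pos : 0 < C3 := Real.exp_pos _

lemma log_Bc : 42 ≤ Real.log (Bc : ℝ) := by
  have h1 : Real.exp 42 ≤ (Bc : ℝ) := Nat.le_ceil _
  have h2 := Real.log_le_log (Real.exp_pos 42) h1
  rwa [Real.log_exp] at h2

lemma Bc_pos : 1 ≤ Bc := by
  have h1 : Real.exp 42 ≤ (Bc : ℝ) := Nat.le_ceil _
  have h2 : (0 : ℝ) < (Bc : ℝ) := lt_of_lt_of_le (Real.exp_pos 42) h1
  have h3 : 0 < Bc := by exact_mod_cast h2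
  exact h3

lemma N9_ge : 6 * C3 + 6 ≤ (N9 : ℝ) := by
  unfold N9
  push_cast
  have := Nat.le_ceil (6 * C3)
  linarith

lemma N9_ge_six : 6 ≤ N9 := by
  unfold N9; omega

lemma K0_pos : 0 < K0 := by
  unfold K0
  positivity

/-- For every step bound `k ≥ 1` and every `M` there are a height `w` and a position `c ≥ M`
with `log (c + k + 2) ≤ K0 k w` such that no Gaussian integer `c + a + b i` with `0 ≤ a ≤ k`,
`|b| ≤ w` is irreducible. -/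
theorem moat_params (k M : ℕ) (hk : 1 ≤ k) :
    ∃ w c : ℕ, M ≤ c ∧ Real.log ((c : ℝ) + k + 2) ≤ K0 * k * w ∧
      ∀ a : ℕ, a ≤ k → ∀ b : ℤ, |b| ≤ (w : ℤ) →
        ¬ Irreducible (⟨((c + a : ℕ) : ℤ), b⟩ : GaussianInt) := by
  obtain ⟨w, hw⟩ : ∃ w : ℕ, w = max (max (k + 3) N9) (M + 2) := ⟨_, rfl⟩
  have hwk : k + 3 ≤ w := by rw [hw]; exact le_trans (le_max_left _ _) (le_max_left _ _)
  have hwN : N9 ≤ w := by rw [hw]; exact le_trans (le_max_right _ _) (le_max_left _ _)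
  have hwM : M + 2 ≤ w := by rw [hw]; exact le_max_right _ _
  obtain ⟨y, hy⟩ : ∃ y : ℕ, y = N9 * (k + 1) * w := ⟨_, rfl⟩
  have hN6 := N9_ge_six
  have hB1 := Bc_pos
  have hy3 : 3 ≤ y := by
    rw [hy]
    have h1 : 6 * 1 * 1 ≤ N9 * (k + 1) * w :=
      Nat.mul_le_mul (Nat.mul_le_mul hN6 (by omega)) (by omega)
    omega
  have hyY : y ≤ Bc * y := Nat.le_mul_of_pos_left y hB1
  -- real versions
  have hkR : (1 : ℝ) ≤ (k : ℝ) := by exact_mod_cast hk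
  have hwR : (4 : ℝ) ≤ (w : ℝ) := by exact_mod_cast (by omega : 4 ≤ w)
  have hy3R : (3 : ℝ) ≤ (y : ℝ) := by exact_mod_cast hy3
  have hyR : (y : ℝ) = (N9 : ℝ) * ((k : ℝ) + 1) * (w : ℝ) := by rw [hy]; push_cast; ring
  have hL : 0 < Real.log (y : ℝ) := Real.log_pos (by linarith)
  -- log y ≤ 6 w
  have hLw : Real.log (y : ℝ) ≤ 6 * (w : ℝ) := by
    have h1 : (y : ℝ) ≤ (w : ℝ) ^ 3 := by
      have h2 : y ≤ w * w * w := by
        rw [hy]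
        exact Nat.mul_le_mul (Nat.mul_le_mul hwN (by omega)) le_rfl
      have h3 : (y : ℝ) ≤ (w : ℝ) * (w : ℝ) * (w : ℝ) := by exact_mod_cast h2
      calc (y : ℝ) ≤ (w : ℝ) * (w : ℝ) * (w : ℝ) := h3
        _ = (w : ℝ) ^ 3 := by ring
    have h4 : Real.log (y : ℝ) ≤ Real.log ((w : ℝ) ^ 3) := Real.log_le_log (by linarith) h1
    rw [Real.log_pow] at h4
    have h5 : Real.log (w : ℝ) ≤ (w : ℝ) - 1 := Real.log_le_sub_one_of_pos (by linarith)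
    push_cast at h4
    linarith
  -- the counting hypothesis
  have hcard : ((k : ℝ) + 1) * (3 * (w : ℝ) * ∏ p ∈ splitPrimes 0 y, (1 - 2 / (p : ℝ)))
      + ((k : ℝ) + 1) ≤ ((splitPrimes y (Bc * y)).card : ℝ) := by
    have h1 := prod_split_le y (by omega)
    have h2 := card_split_ge y Bc hy3 log_Bc
    have h3 : Real.exp (20 / Real.log 2) / Real.log ((y : ℝ) + 1) ≤ C3 / Real.log (y : ℝ) := by
      unfold C3
      apply div_le_div_of_nonneg_left (Real.exp_pos _).le hL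
      exact Real.log_le_log (by linarith) (by linarith)
    have h4 : ∏ p ∈ splitPrimes 0 y, (1 - 2 / (p : ℝ)) ≤ C3 / Real.log (y : ℝ) := le_trans h1 h3
    have h5 : ((k : ℝ) + 1) * (3 * (w : ℝ) * ∏ p ∈ splitPrimes 0 y, (1 - 2 / (p : ℝ)))
        ≤ ((k : ℝ) + 1) * (3 * (w : ℝ) * (C3 / Real.log (y : ℝ))) := by
      apply mul_le_mul_of_nonneg_left _ (by linarith)
      apply mul_le_mul_of_nonneg_left h4 (by linarith)
    have h6 : ((k : ℝ) + 1) * (3 * (w : ℝ) * (C3 / Real.log (y : ℝ))) + ((k : ℝ) + 1)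
        ≤ (y : ℝ) / Real.log (y : ℝ) := by
      rw [le_div_iff₀ hL]
      have e : (((k : ℝ) + 1) * (3 * (w : ℝ) * (C3 / Real.log (y : ℝ))) + ((k : ℝ) + 1))
          * Real.log (y : ℝ)
          = 3 * C3 * (((k : ℝ) + 1) * (w : ℝ)) + ((k : ℝ) + 1) * Real.log (y : ℝ) := by
        field_simp
      rw [e]
      have h12 : (N9 : ℝ) * (((k : ℝ) + 1) * (w : ℝ)) = (y : ℝ) := by rw [hyR]; ring
      have h7 := N9_ge
      have h8 : 0 < ((k : ℝ) + 1) * (w : ℝ) := by positivity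
      have h9 : ((k : ℝ) + 1) * Real.log (y : ℝ) ≤ ((k : ℝ) + 1) * (6 * (w : ℝ)) :=
        mul_le_mul_of_nonneg_left hLw (by linarith)
      have h10 : (6 * C3 + 6) * (((k : ℝ) + 1) * (w : ℝ))
          ≤ (N9 : ℝ) * (((k : ℝ) + 1) * (w : ℝ)) :=
        mul_le_mul_of_nonneg_right h7 h8.le
      have h11 : 0 ≤ C3 * (((k : ℝ) + 1) * (w : ℝ)) := mul_nonneg C3_pos.le h8.le
      rw [h12] at h10
      linarith
    linarith
  obtain ⟨c, hMc, hcle, hmoat⟩ := exists_moat k w y (Bc * y) hyY hcard M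
  refine ⟨w, c, hMc, ?_, hmoat⟩
  -- the size of c
  have hcR : (c : ℝ) ≤ ((M : ℝ) + 2) * (4 : ℝ) ^ (Bc * y) := by exact_mod_cast hcle
  have hX1 : (1 : ℝ) ≤ ((M : ℝ) + 2) * (4 : ℝ) ^ (Bc * y) := by
    have h1 : (1 : ℝ) ≤ (4 : ℝ) ^ (Bc * y) := one_le_pow₀ (by norm_num)
    have h2 : (0 : ℝ) ≤ (M : ℝ) := Nat.cast_nonneg M
    nlinarith
  have hsum : (c : ℝ) + k + 2 ≤ ((M : ℝ) + 2) * (4 : ℝ) ^ (Bc * y) * ((k : ℝ) + 3) := by
    nlinarith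
  have hc0 : (0 : ℝ) ≤ (c : ℝ) := Nat.cast_nonneg c
  have hM0 : (0 : ℝ) ≤ (M : ℝ) := Nat.cast_nonneg M
  have hlog1 : Real.log ((c : ℝ) + k + 2)
      ≤ Real.log (((M : ℝ) + 2) * (4 : ℝ) ^ (Bc * y) * ((k : ℝ) + 3)) :=
    Real.log_le_log (by linarith) hsum
  have hlog2 : Real.log (((M : ℝ) + 2) * (4 : ℝ) ^ (Bc * y) * ((k : ℝ) + 3))
      = Real.log ((M : ℝ) + 2) + ((Bc * y : ℕ) : ℝ) * Real.log 4 + Real.log ((k : ℝ) + 3) := by
    rw [Real.log_mul (by positivity) (by positivity), Real.log_mul (by positivity) (by positivity),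
      Real.log_pow]
  have hl4 : Real.log 4 ≤ 2 := by
    have h2 : Real.log 4 = 2 * Real.log 2 := by
      rw [show (4 : ℝ) = 2 ^ 2 by norm_num, Real.log_pow]; norm_num
    have := Real.log_two_lt_d9
    linarith
  have hlM : Real.log ((M : ℝ) + 2) ≤ (w : ℝ) := by
    have h1 := Real.log_le_sub_one_of_pos (by linarith : (0 : ℝ) < (M : ℝ) + 2)
    have h2 : (M : ℝ) + 2 ≤ (w : ℝ) := by exact_mod_cast hwM
    linarith
  have hlk : Real.log ((k : ℝ) + 3) ≤ (w : ℝ) := by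
    have h1 := Real.log_le_sub_one_of_pos (by linarith : (0 : ℝ) < (k : ℝ) + 3)
    have h2 : (k : ℝ) + 3 ≤ (w : ℝ) := by exact_mod_cast hwk
    linarith
  have hBy : ((Bc * y : ℕ) : ℝ) = (Bc : ℝ) * (N9 : ℝ) * ((k : ℝ) + 1) * (w : ℝ) := by
    push_cast; rw [hyR]; ring
  have hBy0 : (0 : ℝ) ≤ ((Bc * y : ℕ) : ℝ) := Nat.cast_nonneg _
  have hY4 : ((Bc * y : ℕ) : ℝ) * Real.log 4 ≤ ((Bc * y : ℕ) : ℝ) * 2 :=
    mul_le_mul_of_nonneg_left hl4 hBy0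
  rw [hlog2] at hlog1
  have hBN : (0 : ℝ) ≤ (Bc : ℝ) * (N9 : ℝ) := by positivity
  have hkw : (0 : ℝ) ≤ (k : ℝ) * (w : ℝ) := by positivity
  have hfin : (w : ℝ) + ((Bc : ℝ) * (N9 : ℝ) * ((k : ℝ) + 1) * (w : ℝ)) * 2 + (w : ℝ)
      ≤ K0 * k * w := by
    unfold K0
    have h1 : (w : ℝ) ≤ (k : ℝ) * (w : ℝ) := by nlinarith
    have h2 : (Bc : ℝ) * (N9 : ℝ) * ((k : ℝ) + 1) * (w : ℝ)
        ≤ (Bc : ℝ) * (N9 : ℝ) * (2 * ((k : ℝ) * (w : ℝ))) := by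
      have h3 : ((k : ℝ) + 1) * (w : ℝ) ≤ 2 * ((k : ℝ) * (w : ℝ)) := by nlinarith
      calc (Bc : ℝ) * (N9 : ℝ) * ((k : ℝ) + 1) * (w : ℝ)
          = (Bc : ℝ) * (N9 : ℝ) * (((k : ℝ) + 1) * (w : ℝ)) := by ring
        _ ≤ (Bc : ℝ) * (N9 : ℝ) * (2 * ((k : ℝ) * (w : ℝ))) :=
          mul_le_mul_of_nonneg_left h3 hBN
    have e : (4 + 4 * (Bc : ℝ) * (N9 : ℝ)) * (k : ℝ) * (w : ℝ)
        = 4 * ((k : ℝ) * (w : ℝ)) + 2 * ((Bc : ℝ) * (N9 : ℝ) * (2 * ((k : ℝ) * (w : ℝ)))) := by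
      ring
    rw [e]
    linarith
  rw [hBy] at hY4 hlog1
  linarith

end Vale.Agent.Lib.P015
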