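import Vale.Agent.Lib.P015.Twist

/-!
# From prime powers to primes; primes congruent to one modulo four
-/

namespace Vale.Agent.Lib.P015

open Finset ArithmeticFunction

/-- `∑_{p ≤ N} log p / p` over primes -/
noncomputable def Mp (N : ℕ) : ℝ := ∑ p ∈ (Ioc 0 N).filter Nat.Prime, Real.log p / (p : ℝ)

/-- `∑_{p ≤ N} χ₄(p) log p / p` over primes -/
noncomputable def Tp (N : ℕ) : ℝ :=
  ∑ p ∈ (Ioc 0 N).filter Nat.Prime, chi4 p * (Real.log p / (p : ℝ))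

/-- the contribution of the proper prime powers -/
noncomputable def E2 (N : ℕ) : ℝ :=
  ∑ d ∈ (Ioc 0 N).filter (fun d => ¬ d.Prime), vonMangoldt d / (d : ℝ)

/-- `∑ log p / p` over the primes `p ≤ N` with `p ≡ 1 (mod 4)` -/
noncomputable def Ap (N : ℕ) : ℝ :=
  ∑ n ∈ Ioc 0 N, if (n.Prime ∧ n % 4 = 1) then Real.log n / (n : ℝ) else 0

lemma E2_nonneg (N : ℕ) : 0 ≤ E2 N := by
  unfold E2
  exact Finset.sum_nonneg fun d _ => div_nonneg vonMangoldt_nonneg (Nat.cast_nonneg d)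

lemma Msum_eq (N : ℕ) : Msum N = Mp N + E2 N := by
  unfold Msum Mp E2
  rw [← Finset.sum_filter_add_sum_filter_not (Ioc 0 N) Nat.Prime]
  congr 1
  apply Finset.sum_congr rfl
  intro p hp
  rw [Finset.mem_filter] at hp
  rw [vonMangoldt_apply_prime hp.2]

lemma Tsum_sub_Tp (N : ℕ) : |Tsum N - Tp N| ≤ E2 N := by
  have h1 : Tsum N = Tp N
      + ∑ d ∈ (Ioc 0 N).filter (fun d => ¬ d.Prime), chi4 d * (vonMangoldt d / (d : ℝ)) := by
    unfold Tsum Tp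
    rw [← Finset.sum_filter_add_sum_filter_not (Ioc 0 N) Nat.Prime]
    congr 1
    apply Finset.sum_congr rfl
    intro p hp
    rw [Finset.mem_filter] at hp
    rw [vonMangoldt_apply_prime hp.2]
  rw [h1, add_sub_cancel_left]
  refine le_trans (Finset.abs_sum_le_sum_abs _ _) ?_
  unfold E2
  apply Finset.sum_le_sum
  intro d _
  have h0 : 0 ≤ vonMangoldt d / (d : ℝ) := div_nonneg vonMangoldt_nonneg (Nat.cast_nonneg d)
  rw [abs_mul, abs_of_nonneg h0]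
  calc |chi4 d| * (vonMangoldt d / (d : ℝ)) ≤ 1 * (vonMangoldt d / (d : ℝ)) :=
        mul_le_mul_of_nonneg_right (chi4_abs_le d) h0
    _ = vonMangoldt d / (d : ℝ) := one_mul _

/-- telescoping bound for `∑ log n / n²` -/
lemma sum_log_div_sq_le (N : ℕ) (hN : 1 ≤ N) :
    ∑ n ∈ Ioc 0 N, Real.log n / (n : ℝ) ^ 2 ≤ 2 - (Real.log N + 2) / (N : ℝ) := by
  induction N, hN using Nat.le_induction with
  | base => simp
  | succ m hm ih =>
    rw [Finset.sum_Ioc_succ_top (Nat.zero_le m)]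
    have hm0 : (0 : ℝ) < (m : ℝ) := by exact_mod_cast hm
    have hm1 : (1 : ℝ) ≤ (m : ℝ) := by exact_mod_cast hm
    have hlog : Real.log ((m : ℝ) + 1) ≤ Real.log m + 1 / (m : ℝ) := by
      have h2 : ((m : ℝ) + 1) / (m : ℝ) = 1 + 1 / (m : ℝ) := by field_simp
      have h3 := Real.log_le_sub_one_of_pos (by positivity : (0 : ℝ) < 1 + 1 / (m : ℝ))
      have h4 : Real.log (((m : ℝ) + 1) / (m : ℝ)) = Real.log ((m : ℝ) + 1) - Real.log m :=
        Real.log_div (by positivity) (by positivity)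
      rw [h2] at h4
      linarith
    have hlm : 0 ≤ Real.log (m : ℝ) := Real.log_nonneg hm1
    have hl1 : 0 ≤ Real.log ((m : ℝ) + 1) := Real.log_nonneg (by linarith)
    -- the key inequality
    have hkey : Real.log ((m : ℝ) + 1) / ((m : ℝ) + 1) ^ 2
        ≤ (Real.log m + 2) / (m : ℝ) - (Real.log ((m : ℝ) + 1) + 2) / ((m : ℝ) + 1) := by
      rw [div_sub_div _ _ hm0.ne' (by positivity : ((m : ℝ) + 1) ≠ 0),
        div_le_div_iff₀ (by positivity) (by positivity)]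
      have h5 : ((m : ℝ) ^ 2 + 2 * m) * Real.log ((m : ℝ) + 1)
          ≤ ((m : ℝ) ^ 2 + 2 * m) * (Real.log m + 1 / (m : ℝ)) :=
        mul_le_mul_of_nonneg_left hlog (by positivity)
      have h6 : ((m : ℝ) ^ 2 + 2 * m) * (Real.log m + 1 / (m : ℝ))
          = ((m : ℝ) ^ 2 + 2 * m) * Real.log m + (m + 2) := by field_simp
      rw [h6] at h5
      have h7 : 0 ≤ (m : ℝ) * ((m : ℝ) + 1) := by positivity
      nlinarith [mul_nonneg h7 (by linarith : (0 : ℝ) ≤ (m : ℝ) + Real.log m),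
        mul_nonneg h7 hlm]
    push_cast at ih ⊢
    linarith

lemma sum_log_div_sq_le_two (N : ℕ) : ∑ n ∈ Ioc 0 N, Real.log n / (n : ℝ) ^ 2 ≤ 2 := by
  rcases Nat.eq_zero_or_pos N with h0 | hpos
  · subst h0; simp
  · have h := sum_log_div_sq_le N hpos
    have hN : (1 : ℝ) ≤ (N : ℝ) := by exact_mod_cast hpos
    have h2 : 0 ≤ (Real.log N + 2) / (N : ℝ) :=
      div_nonneg (by linarith [Real.log_nonneg hN]) (by linarith)
    linarith

lemma geom_tail_le (p N : ℕ) (hp : 2 ≤ p) :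
    ∑ k ∈ Ioc 1 N, (1 / (p : ℝ)) ^ k ≤ 2 / (p : ℝ) ^ 2 := by
  have hIco : (Ioc 1 N : Finset ℕ) = Ico 2 (N + 1) := by
    ext k; simp only [Finset.mem_Ioc, Finset.mem_Ico]; omega
  have hp2 : (2 : ℝ) ≤ (p : ℝ) := by exact_mod_cast hp
  have hr0 : (0 : ℝ) ≤ 1 / (p : ℝ) := by positivity
  have hr1 : 1 / (p : ℝ) ≤ 1 / 2 := one_div_le_one_div_of_le (by norm_num) hp2
  rw [hIco]
  refine le_trans (geom_sum_Ico_le_of_lt_one hr0 (by linarith)) ?_
  rw [div_le_iff₀ (by linarith)]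
  have h3 : 2 / (p : ℝ) ^ 2 = 2 * (1 / (p : ℝ)) ^ 2 := by field_simp
  rw [h3]
  have h4 : 0 ≤ (1 / (p : ℝ)) ^ 2 := by positivity
  nlinarith

lemma E2_le (N : ℕ) : E2 N ≤ 4 := by
  rcases Nat.eq_zero_or_pos N with h0 | hpos
  · subst h0; simp [E2]
  have hNR : (1 : ℝ) ≤ (N : ℝ) := by exact_mod_cast hpos
  have hfloor : ⌊Real.log (N : ℝ) / Real.log 2⌋₊ ≤ N := by
    apply Nat.floor_le_of_le
    rw [div_le_iff₀ (Real.log_pos (by norm_num))]
    have h1 : (N : ℝ) ≤ (2 : ℝ) ^ N := by exact_mod_cast (Nat.lt_two_pow_self).le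
    calc Real.log (N : ℝ) ≤ Real.log ((2 : ℝ) ^ N) := Real.log_le_log (by linarith) h1
      _ = N * Real.log 2 := by rw [Real.log_pow]
  have key := Chebyshev.sum_PrimePow_eq_sum_sum' (fun n => vonMangoldt n / (n : ℝ))
    (Nat.cast_nonneg N) hfloor
  rw [Nat.floor_natCast] at key
  have hL : ∑ n ∈ Ioc 0 N with IsPrimePow n, vonMangoldt n / (n : ℝ) = Msum N := by
    unfold Msum
    apply Finset.sum_filter_of_ne
    intro x _ hx
    have : vonMangoldt x ≠ 0 := by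
      intro h; rw [h, zero_div] at hx; exact hx rfl
    exact vonMangoldt_ne_zero_iff.mp this
  rw [hL, ← Finset.add_sum_Ioc_eq_sum_Icc hpos] at key
  have h1 : ∑ p ∈ Ioc 0 ⌊(N : ℝ) ^ ((1 : ℝ) / ((1 : ℕ) : ℝ))⌋₊ with Nat.Prime p,
      vonMangoldt (p ^ 1) / ((p ^ 1 : ℕ) : ℝ) = Mp N := by
    unfold Mp
    have h2 : ⌊(N : ℝ) ^ ((1 : ℝ) / ((1 : ℕ) : ℝ))⌋₊ = N := by
      rw [Nat.cast_one, div_one, Real.rpow_one, Nat.floor_natCast]
    rw [h2]
    apply Finset.sum_congr rfl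
    intro p hp
    rw [Finset.mem_filter] at hp
    rw [pow_one, vonMangoldt_apply_prime hp.2]
  rw [h1, Msum_eq] at key
  have hE : E2 N = ∑ k ∈ Ioc 1 N, ∑ p ∈ Ioc 0 ⌊(N : ℝ) ^ ((1 : ℝ) / (k : ℝ))⌋₊ with Nat.Prime p,
      vonMangoldt (p ^ k) / ((p ^ k : ℕ) : ℝ) := by linarith
  rw [hE]
  -- bound each inner sum by the sum over all primes up to N
  have hinner : ∀ k ∈ Ioc 1 N,
      ∑ p ∈ Ioc 0 ⌊(N : ℝ) ^ ((1 : ℝ) / (k : ℝ))⌋₊ with Nat.Prime p,
        vonMangoldt (p ^ k) / ((p ^ k : ℕ) : ℝ)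
      ≤ ∑ p ∈ (Ioc 0 N).filter Nat.Prime, Real.log p * (1 / (p : ℝ)) ^ k := by
    intro k hk
    rw [Finset.mem_Ioc] at hk
    have hk1 : (1 : ℝ) ≤ (k : ℝ) := by exact_mod_cast hk.1.le
    have hfl : ⌊(N : ℝ) ^ ((1 : ℝ) / (k : ℝ))⌋₊ ≤ N := by
      apply Nat.floor_le_of_le
      apply Real.rpow_le_self_of_one_le hNR
      rw [div_le_one (by linarith)]
      exact hk1
    have hsub : (Ioc 0 ⌊(N : ℝ) ^ ((1 : ℝ) / (k : ℝ))⌋₊).filter Nat.Prime
        ⊆ (Ioc 0 N).filter Nat.Prime := by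
      apply Finset.filter_subset_filter
      exact Finset.Ioc_subset_Ioc_right hfl
    have heq : ∀ p ∈ (Ioc 0 ⌊(N : ℝ) ^ ((1 : ℝ) / (k : ℝ))⌋₊).filter Nat.Prime,
        vonMangoldt (p ^ k) / ((p ^ k : ℕ) : ℝ) = Real.log p * (1 / (p : ℝ)) ^ k := by
      intro p hp
      rw [Finset.mem_filter] at hp
      rw [vonMangoldt_apply_pow (by omega), vonMangoldt_apply_prime hp.2]
      push_cast
      rw [one_div, inv_pow]
      ring
    rw [Finset.sum_congr rfl heq]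
    apply Finset.sum_le_sum_of_subset_of_nonneg hsub
    intro p hp _
    rw [Finset.mem_filter] at hp
    have hp1 : (1 : ℝ) ≤ (p : ℝ) := by exact_mod_cast hp.2.one_le
    exact mul_nonneg (Real.log_nonneg hp1) (by positivity)
  refine le_trans (Finset.sum_le_sum hinner) ?_
  rw [Finset.sum_comm]
  have hp_bound : ∀ p ∈ (Ioc 0 N).filter Nat.Prime,
      ∑ k ∈ Ioc 1 N, Real.log p * (1 / (p : ℝ)) ^ k ≤ 2 * (Real.log p / (p : ℝ) ^ 2) := by
    intro p hp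
    rw [Finset.mem_filter] at hp
    have hp1 : (1 : ℝ) ≤ (p : ℝ) := by exact_mod_cast hp.2.one_le
    rw [← Finset.mul_sum]
    calc Real.log p * ∑ k ∈ Ioc 1 N, (1 / (p : ℝ)) ^ k
        ≤ Real.log p * (2 / (p : ℝ) ^ 2) :=
          mul_le_mul_of_nonneg_left (geom_tail_le p N hp.2.two_le) (Real.log_nonneg hp1)
      _ = 2 * (Real.log p / (p : ℝ) ^ 2) := by ring
  refine le_trans (Finset.sum_le_sum hp_bound) ?_
  rw [← Finset.mul_sum]
  have h3 : ∑ p ∈ (Ioc 0 N).filter Nat.Prime, Real.log p / (p : ℝ) ^ 2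
      ≤ ∑ n ∈ Ioc 0 N, Real.log n / (n : ℝ) ^ 2 := by
    apply Finset.sum_le_sum_of_subset_of_nonneg (Finset.filter_subset _ _)
    intro n hn _
    rw [Finset.mem_Ioc] at hn
    have hn1 : (1 : ℝ) ≤ (n : ℝ) := by exact_mod_cast hn.1
    exact div_nonneg (Real.log_nonneg hn1) (by positivity)
  have h4 := sum_log_div_sq_le_two N
  linarith

end Vale.Agent.Lib.P015
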