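import Mathlib

/-!
# The average of the singular factor `∏_{p ∣ n} (1 + 2/p)`
-/

namespace Vale.Agent.Lib.P015

open Finset

/-- the singular factor `∏_{p ∈ P, p ∣ n} (1 + 2/p)` -/
noncomputable def fP (P : Finset ℕ) (n : ℕ) : ℝ :=
  ∏ p ∈ P, (if p ∣ n then 1 + 2 / (p : ℝ) else 1)

lemma fP_nonneg (P : Finset ℕ) (n : ℕ) : 0 ≤ fP P n := by
  unfold fP
  apply Finset.prod_nonneg
  intro p _
  split_ifs
  · positivity
  · norm_num

lemma sum_Ioc_dvd (q w : ℕ) (hq : 0 < q) (g : ℕ → ℝ) :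
    ∑ n ∈ Ioc 0 w, (if q ∣ n then g n else 0) = ∑ m ∈ Ioc 0 (w / q), g (q * m) := by
  rw [← Finset.sum_filter]
  symm
  apply Finset.sum_nbij' (fun m => q * m) (fun n => n / q)
  · intro m hm
    rw [Finset.mem_Ioc] at hm
    rw [Finset.mem_filter, Finset.mem_Ioc]
    refine ⟨⟨Nat.mul_pos hq hm.1, ?_⟩, dvd_mul_right q m⟩
    calc q * m ≤ q * (w / q) := Nat.mul_le_mul_left q hm.2
      _ ≤ w := Nat.mul_div_le w q
  · intro n hn
    rw [Finset.mem_filter, Finset.mem_Ioc] at hn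
    obtain ⟨⟨h0, hw⟩, k, rfl⟩ := hn
    rw [Nat.mul_div_cancel_left k hq, Finset.mem_Ioc]
    refine ⟨Nat.pos_of_mul_pos_left h0, ?_⟩
    rw [Nat.le_div_iff_mul_le hq, mul_comm]
    exact hw
  · intro m _
    exact Nat.mul_div_cancel_left m hq
  · intro n hn
    rw [Finset.mem_filter] at hn
    exact Nat.mul_div_cancel' hn.2
  · intro m _
    rfl

lemma fP_mul (P : Finset ℕ) (hP : ∀ p ∈ P, p.Prime) (q : ℕ) (hq : q.Prime) (hqP : q ∉ P)
    (m : ℕ) : fP P (q * m) = fP P m := by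
  unfold fP
  apply Finset.prod_congr rfl
  intro p hp
  have hpp := hP p hp
  have hpq : p ≠ q := fun h => hqP (h ▸ hp)
  have hiff : p ∣ q * m ↔ p ∣ m := by
    constructor
    · intro h
      rcases (Nat.Prime.dvd_mul hpp).mp h with h1 | h1
      · exact absurd ((Nat.prime_dvd_prime_iff_eq hpp hq).mp h1) hpq
      · exact h1
    · intro h
      exact Dvd.dvd.mul_left h q
  by_cases h : p ∣ m
  · rw [if_pos h, if_pos (hiff.mpr h)]
  · rw [if_neg h, if_neg (fun h' => h (hiff.mp h'))]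

/-- the average of the singular factor is bounded by an Euler product -/
theorem sum_fP_le (P : Finset ℕ) (hP : ∀ p ∈ P, p.Prime) (w : ℕ) :
    ∑ n ∈ Ioc 0 w, fP P n ≤ (w : ℝ) * ∏ p ∈ P, (1 + 2 / (p : ℝ) ^ 2) := by
  classical
  induction P using Finset.induction_on generalizing w with
  | empty => simp [fP]
  | insert q P' hq ih =>
    have hP' : ∀ p ∈ P', p.Prime := fun p hp => hP p (Finset.mem_insert_of_mem hp)
    have hqp : q.Prime := hP q (Finset.mem_insert_self q P')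
    have hq0 : (0 : ℝ) < (q : ℝ) := by exact_mod_cast hqp.pos
    have hC : 0 ≤ ∏ p ∈ P', (1 + 2 / (p : ℝ) ^ 2) :=
      Finset.prod_nonneg fun p _ => by positivity
    have h1 : ∀ n ∈ Ioc 0 w, fP (insert q P') n
        = fP P' n + 2 / (q : ℝ) * (if q ∣ n then fP P' n else 0) := by
      intro n _
      unfold fP
      rw [Finset.prod_insert hq]
      split_ifs <;> ring
    rw [Finset.sum_congr rfl h1, Finset.sum_add_distrib, ← Finset.mul_sum,
      sum_Ioc_dvd q w hqp.pos, Finset.prod_insert hq]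
    have h2 : ∑ m ∈ Ioc 0 (w / q), fP P' (q * m) = ∑ m ∈ Ioc 0 (w / q), fP P' m :=
      Finset.sum_congr rfl fun m _ => fP_mul P' hP' q hqp hq m
    rw [h2]
    have h3 := ih hP' w
    have h4 := ih hP' (w / q)
    have h5 : ((w / q : ℕ) : ℝ) ≤ (w : ℝ) / (q : ℝ) := Nat.cast_div_le
    have h6 : ((w / q : ℕ) : ℝ) * ∏ p ∈ P', (1 + 2 / (p : ℝ) ^ 2)
        ≤ (w : ℝ) / (q : ℝ) * ∏ p ∈ P', (1 + 2 / (p : ℝ) ^ 2) :=
      mul_le_mul_of_nonneg_right h5 hC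
    have h7 : 2 / (q : ℝ) * ∑ m ∈ Ioc 0 (w / q), fP P' m
        ≤ 2 / (q : ℝ) * ((w : ℝ) / (q : ℝ) * ∏ p ∈ P', (1 + 2 / (p : ℝ) ^ 2)) :=
      mul_le_mul_of_nonneg_left (le_trans h4 h6) (by positivity)
    have h8 : (w : ℝ) * ((1 + 2 / (q : ℝ) ^ 2) * ∏ p ∈ P', (1 + 2 / (p : ℝ) ^ 2))
        = (w : ℝ) * ∏ p ∈ P', (1 + 2 / (p : ℝ) ^ 2)
          + 2 / (q : ℝ) * ((w : ℝ) / (q : ℝ) * ∏ p ∈ P', (1 + 2 / (p : ℝ) ^ 2)) := by
      field_simp
    rw [h8]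
    linarith

lemma prod_Ioc_le (y : ℕ) (hy : 2 ≤ y) :
    ∏ n ∈ Ioc 2 y, (1 + 2 / (n : ℝ) ^ 2) ≤ 3 * ((y : ℝ) - 1) / ((y : ℝ) + 1) := by
  induction y, hy using Nat.le_induction with
  | base => norm_num
  | succ y hy ih =>
    rw [Finset.prod_Ioc_succ_top (by omega : 2 ≤ y)]
    have hy2 : (2 : ℝ) ≤ (y : ℝ) := by exact_mod_cast hy
    have h0 : (0 : ℝ) ≤ 1 + 2 / ((y + 1 : ℕ) : ℝ) ^ 2 := by positivity
    refine le_trans (mul_le_mul_of_nonneg_right ih h0) ?_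
    push_cast
    have e1 : (1 : ℝ) + 2 / ((y : ℝ) + 1) ^ 2 = (((y : ℝ) + 1) ^ 2 + 2) / ((y : ℝ) + 1) ^ 2 := by
      field_simp
    rw [e1, div_mul_div_comm, div_le_div_iff₀ (by positivity) (by positivity)]
    have e2 : 3 * ((y : ℝ) + 1 - 1) * (((y : ℝ) + 1) * ((y : ℝ) + 1) ^ 2)
        - 3 * ((y : ℝ) - 1) * (((y : ℝ) + 1) ^ 2 + 2) * ((y : ℝ) + 1 + 1) = 6 * (y : ℝ) + 18 := by
      ring
    linarith

/-- the Euler product `∏ (1 + 2/p²)` over a set of numbers in `(2, y]` is at most `3` -/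
theorem prod_one_add_le (P : Finset ℕ) (y : ℕ) (hP : P ⊆ Ioc 2 y) :
    ∏ p ∈ P, (1 + 2 / (p : ℝ) ^ 2) ≤ 3 := by
  rcases Nat.lt_or_ge y 2 with hy | hy
  · have hempty : P = ∅ := by
      rw [Finset.eq_empty_iff_forall_notMem]
      intro p hp
      have := Finset.mem_Ioc.mp (hP hp)
      omega
    rw [hempty]
    norm_num
  · have h1 : ∏ p ∈ P, (1 + 2 / (p : ℝ) ^ 2) ≤ ∏ n ∈ Ioc 2 y, (1 + 2 / (n : ℝ) ^ 2) := by
      apply Finset.prod_le_prod_of_subset_of_one_le hP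
      · intro i _; positivity
      · intro i _ _
        have : (0 : ℝ) ≤ 2 / (i : ℝ) ^ 2 := by positivity
        linarith
    refine le_trans h1 (le_trans (prod_Ioc_le y hy) ?_)
    have hy2 : (2 : ℝ) ≤ (y : ℝ) := by exact_mod_cast hy
    rw [div_le_iff₀ (by linarith)]
    linarith

end Vale.Agent.Lib.P015
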