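import Vale.Agent.Lib.P015.SplitPrimes

/-!
# The set of split primes: Mertens product, counting, and the primorial bound
-/

namespace Vale.Agent.Lib.P015

open Finset

/-- the primes `p ≡ 1 (mod 4)` with `a < p ≤ b` -/
def splitPrimes (a b : ℕ) : Finset ℕ := (Ioc a b).filter (fun p => p.Prime ∧ p % 4 = 1)

lemma mem_splitPrimes {a b p : ℕ} :
    p ∈ splitPrimes a b ↔ (a < p ∧ p ≤ b) ∧ p.Prime ∧ p % 4 = 1 := by
  unfold splitPrimes
  rw [Finset.mem_filter, Finset.mem_Ioc]

lemma five_le_of_split {p : ℕ} (hp : p.Prime) (h4 : p % 4 = 1) : 5 ≤ p := by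
  have h2 := hp.two_le
  by_contra hcon
  have : p = 1 := by omega
  omega

lemma Rp_eq (y : ℕ) : Rp y = ∑ p ∈ splitPrimes 0 y, 1 / (p : ℝ) := by
  unfold Rp splitPrimes
  rw [Finset.sum_filter]

lemma Ap_eq (y : ℕ) : Ap y = ∑ p ∈ splitPrimes 0 y, Real.log p / (p : ℝ) := by
  unfold Ap splitPrimes
  rw [Finset.sum_filter]

/-- the Mertens product over split primes -/
lemma prod_split_le (y : ℕ) (hy : 2 ≤ y) :
    ∏ p ∈ splitPrimes 0 y, (1 - 2 / (p : ℝ))
      ≤ Real.exp (20 / Real.log 2) / Real.log ((y : ℝ) + 1) := by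
  have hy2 : (2 : ℝ) ≤ (y : ℝ) := by exact_mod_cast hy
  have hL : 0 < Real.log ((y : ℝ) + 1) := Real.log_pos (by linarith)
  have h1 : ∏ p ∈ splitPrimes 0 y, (1 - 2 / (p : ℝ))
      ≤ ∏ p ∈ splitPrimes 0 y, Real.exp (-(2 / (p : ℝ))) := by
    apply Finset.prod_le_prod
    · intro p hp
      rw [mem_splitPrimes] at hp
      have h5 : (5 : ℝ) ≤ (p : ℝ) := by exact_mod_cast five_le_of_split hp.2.1 hp.2.2
      rw [sub_nonneg, div_le_one (by linarith)]
      linarith
    · intro p _
      exact Real.one_sub_le_exp_neg _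
  refine le_trans h1 ?_
  rw [← Real.exp_sum]
  have h2 : ∑ p ∈ splitPrimes 0 y, -(2 / (p : ℝ)) = -(2 * Rp y) := by
    rw [Rp_eq, Finset.mul_sum, ← Finset.sum_neg_distrib]
    apply Finset.sum_congr rfl
    intro p _
    ring
  rw [h2]
  have h3 := Rp_ge y hy
  have h20 : 20 / Real.log 2 = 2 * (10 / Real.log 2) := by ring
  have h4 : -(2 * Rp y) ≤ 20 / Real.log 2 - Real.log (Real.log ((y : ℝ) + 1)) := by linarith
  refine le_trans (Real.exp_le_exp.mpr h4) ?_
  rw [Real.exp_sub, Real.exp_log hL]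

/-- many split primes in `(y, B y]` -/
lemma card_split_ge (y B : ℕ) (hy : 3 ≤ y) (hB : 42 ≤ Real.log B) :
    (y : ℝ) / Real.log y ≤ ((splitPrimes y (B * y)).card : ℝ) := by
  have hy3 : (3 : ℝ) ≤ (y : ℝ) := by exact_mod_cast hy
  have hB1 : 1 ≤ B := by
    by_contra hcon
    have : B = 0 := by omega
    rw [this] at hB
    norm_num at hB
  have hBR : (1 : ℝ) ≤ (B : ℝ) := by exact_mod_cast hB1
  have hyB : y ≤ B * y := Nat.le_mul_of_pos_left y hB1
  have hLy : 0 < Real.log (y : ℝ) := Real.log_pos (by linarith)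
  have he : Real.exp 1 ≤ 3 := by
    have := Real.exp_one_lt_d9
    linarith
  -- the difference of the A-sums
  have hdiff : Ap (B * y) - Ap y = ∑ p ∈ splitPrimes y (B * y), Real.log p / (p : ℝ) := by
    unfold Ap splitPrimes
    rw [Finset.sum_filter, ← Finset.sum_Ioc_consecutive _ (Nat.zero_le y) hyB]
    ring
  have hlow : 1 ≤ Ap (B * y) - Ap y := by
    have h1 := abs_le.mp (Ap_bounds (B * y) (by omega))
    have h2 := abs_le.mp (Ap_bounds y (by omega))
    have h3 : Real.log ((B * y : ℕ) : ℝ) = Real.log B + Real.log y := by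
      push_cast
      exact Real.log_mul (by linarith) (by linarith)
    rw [h3] at h1
    linarith [h1.1, h2.2]
  have hup : ∑ p ∈ splitPrimes y (B * y), Real.log p / (p : ℝ)
      ≤ (splitPrimes y (B * y)).card • (Real.log y / (y : ℝ)) := by
    apply Finset.sum_le_card_nsmul
    intro p hp
    rw [mem_splitPrimes] at hp
    have hyp : (y : ℝ) ≤ (p : ℝ) := by exact_mod_cast hp.1.1.le
    exact Real.log_div_self_antitoneOn (Set.mem_Ici.mpr (by linarith))
      (Set.mem_Ici.mpr (by linarith)) hyp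
  rw [nsmul_eq_mul] at hup
  have h5 : 1 ≤ ((splitPrimes y (B * y)).card : ℝ) * (Real.log y / (y : ℝ)) := by linarith
  rw [div_le_iff₀ hLy]
  have h6 : ((splitPrimes y (B * y)).card : ℝ) * (Real.log y / (y : ℝ))
      = ((splitPrimes y (B * y)).card : ℝ) * Real.log y / (y : ℝ) := by ring
  rw [h6, le_div_iff₀ (by linarith)] at h5
  linarith

/-- the product of the split primes up to `n` is at most `4 ^ n` -/
lemma prod_split_le_four_pow (n : ℕ) : ∏ p ∈ splitPrimes 0 n, p ≤ 4 ^ n := by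
  refine le_trans ?_ (primorial_le_four_pow n)
  unfold primorial
  apply Finset.prod_le_prod_of_subset_of_one_le'
  · intro p hp
    rw [mem_splitPrimes] at hp
    rw [Finset.mem_filter, Finset.mem_range]
    exact ⟨by omega, hp.2.1⟩
  · intro p hp _
    rw [Finset.mem_filter] at hp
    exact hp.2.one_le

end Vale.Agent.Lib.P015
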