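import Vale.Agent.Lib.P015.Kill
import Vale.Agent.Lib.P015.Average
import Vale.Agent.Lib.P015.Singular
import Vale.Agent.Lib.P015.SplitBounds

/-!
# The two-phase covering construction
-/

namespace Vale.Agent.Lib.P015

open Finset

/-- the number of residues that certainly remove the point `x = (a, n)` -/
noncomputable def kap (p : ℕ) (x : ℕ × ℕ) : ℝ := if p ∣ x.2 then 1 else 2

open Classical in
lemma kap_le_card {p : ℕ} (hp : p.Prime) (h4 : p % 4 = 1) (x : ℕ × ℕ) :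
    kap p x ≤ (((range p).filter (fun r => kills p r x)).card : ℝ) := by
  unfold kap
  by_cases h : p ∣ x.2
  · rw [if_pos h]
    exact_mod_cast one_le_card_kill hp h4 x
  · rw [if_neg h]
    exact_mod_cast two_le_card_kill hp h4 x h

lemma kap_factor_le {p : ℕ} (hp : 5 ≤ p) (x : ℕ × ℕ) :
    1 - kap p x / (p : ℝ)
      ≤ (1 - 2 / (p : ℝ)) * (if p ∣ x.2 then 1 + 2 / (p : ℝ) else 1) := by
  have hp5 : (5 : ℝ) ≤ (p : ℝ) := by exact_mod_cast hp
  unfold kap
  by_cases h : p ∣ x.2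
  · rw [if_pos h, if_pos h]
    have e : (1 - 2 / (p : ℝ)) * (1 + 2 / (p : ℝ)) - (1 - 1 / (p : ℝ))
        = (1 / (p : ℝ)) * (1 - 4 / (p : ℝ)) := by
      field_simp
      ring
    have h1 : 0 ≤ (1 / (p : ℝ)) * (1 - 4 / (p : ℝ)) := by
      apply mul_nonneg (by positivity)
      rw [sub_nonneg, div_le_one (by linarith)]
      linarith
    linarith
  · rw [if_neg h, if_neg h, mul_one]

lemma kap_factor_nonneg {p : ℕ} (hp : 5 ≤ p) (x : ℕ × ℕ) : 0 ≤ 1 - kap p x / (p : ℝ) := by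
  have hp5 : (5 : ℝ) ≤ (p : ℝ) := by exact_mod_cast hp
  unfold kap
  rw [sub_nonneg, div_le_one (by linarith)]
  split_ifs <;> linarith

/-- Phase one: residues modulo the split primes up to `y` leaving few survivors
among the points `(a, n)` with `a ≤ k` and `1 ≤ n ≤ w`. -/
theorem phase1 (k w y : ℕ) :
    ∃ (r : ℕ → ℕ) (S : Finset (ℕ × ℕ)),
      (∀ x ∈ range (k + 1) ×ˢ Ioc 0 w,
        (∀ p ∈ splitPrimes 0 y, ¬ kills p (r p) x) → x ∈ S) ∧
      (S.card : ℝ) ≤ ((k : ℝ) + 1) * (3 * (w : ℝ) * ∏ p ∈ splitPrimes 0 y, (1 - 2 / (p : ℝ))) := by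
  classical
  obtain ⟨X, hX⟩ : ∃ X : Finset (ℕ × ℕ), X = range (k + 1) ×ˢ Ioc 0 w := ⟨_, rfl⟩
  obtain ⟨P, hPdef⟩ : ∃ P : Finset ℕ, P = splitPrimes 0 y := ⟨_, rfl⟩
  have hPmem : ∀ p ∈ P, p.Prime ∧ p % 4 = 1 := by
    intro p hp
    rw [hPdef, mem_splitPrimes] at hp
    exact hp.2
  have hP5 : ∀ p ∈ P, 5 ≤ p := fun p hp => five_le_of_split (hPmem p hp).1 (hPmem p hp).2
  obtain ⟨r, hr⟩ := exists_residues kills kap X P
    (fun p hp => (hPmem p hp).1.pos)
    (fun p hp x _ => by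
      have hp5 : (5 : ℝ) ≤ (p : ℝ) := by exact_mod_cast hP5 p hp
      unfold kap
      split_ifs <;> linarith)
    (fun p hp x _ => kap_le_card (hPmem p hp).1 (hPmem p hp).2 x)
    (fun _ => 1) (fun _ _ => zero_le_one)
  rw [← card_survivors] at hr
  refine ⟨r, X.filter (fun x => ∀ p ∈ P, ¬ kills p (r p) x), ?_, ?_⟩
  · intro x hx hsurv
    rw [Finset.mem_filter]
    exact ⟨hX ▸ hx, hPdef ▸ hsurv⟩
  · rw [← hPdef]
    refine le_trans hr ?_
    -- bound the expected number of survivors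
    have hterm : ∀ x ∈ X, (1 : ℝ) * ∏ p ∈ P, (1 - kap p x / (p : ℝ))
        ≤ (∏ p ∈ P, (1 - 2 / (p : ℝ))) * fP P x.2 := by
      intro x _
      rw [one_mul]
      unfold fP
      rw [← Finset.prod_mul_distrib]
      apply Finset.prod_le_prod
      · intro p hp
        exact kap_factor_nonneg (hP5 p hp) x
      · intro p hp
        exact kap_factor_le (hP5 p hp) x
    refine le_trans (Finset.sum_le_sum hterm) ?_
    rw [hX, Finset.sum_product]
    simp only [Finset.sum_const, Finset.card_range, nsmul_eq_mul]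
    rw [← Finset.mul_sum]
    have hPi0 : 0 ≤ ∏ p ∈ P, (1 - 2 / (p : ℝ)) := by
      apply Finset.prod_nonneg
      intro p hp
      have hp5 : (5 : ℝ) ≤ (p : ℝ) := by exact_mod_cast hP5 p hp
      rw [sub_nonneg, div_le_one (by linarith)]
      linarith
    have hG : ∑ n ∈ Ioc 0 w, fP P n ≤ (w : ℝ) * 3 := by
      refine le_trans (sum_fP_le P (fun p hp => (hPmem p hp).1) w) ?_
      apply mul_le_mul_of_nonneg_left _ (Nat.cast_nonneg w)
      apply prod_one_add_le P y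
      intro p hp
      have h5 := hP5 p hp
      rw [hPdef, mem_splitPrimes] at hp
      rw [Finset.mem_Ioc]
      exact ⟨by omega, hp.1.2⟩
    have h1 : (∏ p ∈ P, (1 - 2 / (p : ℝ))) * ∑ n ∈ Ioc 0 w, fP P n
        ≤ (∏ p ∈ P, (1 - 2 / (p : ℝ))) * ((w : ℝ) * 3) :=
      mul_le_mul_of_nonneg_left hG hPi0
    have h2 : ((k + 1 : ℕ) : ℝ) * ((∏ p ∈ P, (1 - 2 / (p : ℝ))) * ∑ n ∈ Ioc 0 w, fP P n)
        ≤ ((k + 1 : ℕ) : ℝ) * ((∏ p ∈ P, (1 - 2 / (p : ℝ))) * ((w : ℝ) * 3)) :=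
      mul_le_mul_of_nonneg_left h1 (Nat.cast_nonneg _)
    refine le_trans h2 (le_of_eq ?_)
    push_cast
    ring

/-- Phase two: with at least as many split primes as points, each point can be removed
by its own prime. -/
theorem phase2 (S : Finset (ℕ × ℕ)) :
    ∀ P2 : Finset ℕ, (∀ p ∈ P2, p.Prime ∧ p % 4 = 1) → S.card ≤ P2.card →
      ∃ r : ℕ → ℕ, ∀ x ∈ S, ∃ p ∈ P2, kills p (r p) x := by
  classical
  induction S using Finset.induction_on with
  | empty => intro P2 _ _; exact ⟨fun _ => 0, by simp⟩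
  | insert x S' hx ih =>
    intro P2 hP2 hcard
    rw [Finset.card_insert_of_notMem hx] at hcard
    have hne : P2.Nonempty := Finset.card_pos.mp (by omega)
    obtain ⟨q, hq⟩ := hne
    have hcard' : S'.card ≤ (P2.erase q).card := by
      rw [Finset.card_erase_of_mem hq]; omega
    obtain ⟨r', hr'⟩ := ih (P2.erase q)
      (fun p hp => hP2 p (Finset.mem_of_mem_erase hp)) hcard'
    obtain ⟨r0, _, hr0⟩ := exists_kill (hP2 q hq).1 (hP2 q hq).2 x
    refine ⟨Function.update r' q r0, ?_⟩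
    intro x' hx'
    rw [Finset.mem_insert] at hx'
    rcases hx' with rfl | hx'
    · exact ⟨q, hq, by rw [Function.update_self]; exact hr0⟩
    · obtain ⟨p, hp, hk⟩ := hr' x' hx'
      refine ⟨p, Finset.mem_of_mem_erase hp, ?_⟩
      rw [Function.update_of_ne (Finset.ne_of_mem_erase hp)]
      exact hk

/-- Both phases together: residues modulo the split primes up to `Y` that remove every point
`(a, n)` with `a ≤ k`, `n ≤ w`. -/
theorem exists_sieve_residues (k w y Y : ℕ) (hyY : y ≤ Y)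
    (hcard : ((k : ℝ) + 1) * (3 * (w : ℝ) * ∏ p ∈ splitPrimes 0 y, (1 - 2 / (p : ℝ)))
      + ((k : ℝ) + 1) ≤ ((splitPrimes y Y).card : ℝ)) :
    ∃ r : ℕ → ℕ, ∀ a ≤ k, ∀ n ≤ w, ∃ p ∈ splitPrimes 0 Y, kills p (r p) (a, n) := by
  classical
  obtain ⟨r1, S1, hS1, hS1card⟩ := phase1 k w y
  obtain ⟨S, hSdef⟩ : ∃ S : Finset (ℕ × ℕ), S = S1 ∪ (range (k + 1) ×ˢ {0}) := ⟨_, rfl⟩
  have hScard : S.card ≤ (splitPrimes y Y).card := by
    have h1 : S.card ≤ S1.card + (range (k + 1) ×ˢ ({0} : Finset ℕ)).card := by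
      rw [hSdef]; exact Finset.card_union_le _ _
    rw [Finset.card_product, Finset.card_range, Finset.card_singleton, mul_one] at h1
    have h2 : (S.card : ℝ) ≤ (S1.card : ℝ) + ((k : ℝ) + 1) := by exact_mod_cast h1
    have h3 : (S.card : ℝ) ≤ ((splitPrimes y Y).card : ℝ) := by linarith
    exact_mod_cast h3
  obtain ⟨r2, hr2⟩ := phase2 S (splitPrimes y Y)
    (fun p hp => (mem_splitPrimes.mp hp).2) hScard
  refine ⟨fun p => if p ≤ y then r1 p else r2 p, ?_⟩
  intro a ha n hn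
  have hphase2 : (a, n) ∈ S → ∃ p ∈ splitPrimes 0 Y,
      kills p ((fun p => if p ≤ y then r1 p else r2 p) p) (a, n) := by
    intro hmem
    obtain ⟨p, hp, hk⟩ := hr2 (a, n) hmem
    rw [mem_splitPrimes] at hp
    refine ⟨p, mem_splitPrimes.mpr ⟨⟨by omega, hp.1.2⟩, hp.2⟩, ?_⟩
    have hnot : ¬ p ≤ y := by omega
    simp only [if_neg hnot]
    exact hk
  rcases Nat.eq_zero_or_pos n with h0 | hpos
  · subst h0
    apply hphase2
    rw [hSdef, Finset.mem_union]
    right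
    rw [Finset.mem_product, Finset.mem_range, Finset.mem_singleton]
    exact ⟨by omega, rfl⟩
  · by_cases hsurv : ∀ p ∈ splitPrimes 0 y, ¬ kills p (r1 p) (a, n)
    · apply hphase2
      rw [hSdef, Finset.mem_union]
      left
      apply hS1 (a, n) _ hsurv
      rw [Finset.mem_product, Finset.mem_range, Finset.mem_Ioc]
      exact ⟨by omega, hpos, hn⟩
    · simp only [not_forall, not_not] at hsurv
      obtain ⟨p, hp, hk⟩ := hsurv
      rw [mem_splitPrimes] at hp
      refine ⟨p, mem_splitPrimes.mpr ⟨⟨hp.1.1, le_trans hp.1.2 hyY⟩, hp.2⟩, ?_⟩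
      have hle : p ≤ y := hp.1.2
      simp only [if_pos hle]
      exact hk

end Vale.Agent.Lib.P015
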