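import Mathlib

/-!
# Explicit composite slabs of Gaussian integers

For natural numbers `k`, `w` let `F` be the product of all nonzero `a^2+b^2` with
`0 ≤ a ≤ k`, `0 ≤ b ≤ w`.  If `F ≥ 3`, then no Gaussian integer `F^3 + a + b i` with
`|a| ≤ k`, `|b| ≤ w` is prime.
-/

namespace Vale.Agent.Lib.P015

open GaussianInt

/-- product of all nonzero `a^2+b^2`, `0 ≤ a ≤ k`, `0 ≤ b ≤ w` -/
def slabF (k w : ℕ) : ℕ :=
  ∏ a ∈ Finset.range (k+1), ∏ b ∈ Finset.range (w+1),
    (if a = 0 ∧ b = 0 then 1 else a^2 + b^2)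

lemma slabF_pos (k w : ℕ) : 0 < slabF k w := by
  unfold slabF
  apply Finset.prod_pos; intro a _; apply Finset.prod_pos; intro b _
  split_ifs with h
  · exact one_pos
  · have h' : a ≠ 0 ∨ b ≠ 0 := by tauto
    rcases h' with h' | h'
    · have : 0 < a := Nat.pos_of_ne_zero h'
      positivity
    · have : 0 < b := Nat.pos_of_ne_zero h'
      positivity

lemma dvd_slabF {k w a b : ℕ} (ha : a ≤ k) (hb : b ≤ w) (h : ¬ (a = 0 ∧ b = 0)) :
    a^2 + b^2 ∣ slabF k w := by
  unfold slabF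
  have h1 : (∏ b' ∈ Finset.range (w+1), (if a = 0 ∧ b' = 0 then 1 else a^2 + b'^2)) ∣
      ∏ a' ∈ Finset.range (k+1), ∏ b' ∈ Finset.range (w+1),
        (if a' = 0 ∧ b' = 0 then 1 else a'^2 + b'^2) :=
    Finset.dvd_prod_of_mem
      (fun a' => ∏ b' ∈ Finset.range (w+1), (if a' = 0 ∧ b' = 0 then 1 else a'^2 + b'^2))
      (Finset.mem_range.mpr (Nat.lt_succ_of_le ha))
  refine dvd_trans ?_ h1
  have h2 := Finset.dvd_prod_of_mem (fun b' => if a = 0 ∧ b' = 0 then 1 else a^2 + b'^2)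
    (Finset.mem_range.mpr (Nat.lt_succ_of_le hb))
  simpa [h] using h2

lemma slabF_le (k w : ℕ) (hk : 1 ≤ k) : slabF k w ≤ (k^2 + w^2) ^ ((k+1) * (w+1)) := by
  unfold slabF
  calc (∏ a ∈ Finset.range (k+1), ∏ b ∈ Finset.range (w+1),
          (if a = 0 ∧ b = 0 then 1 else a^2 + b^2))
      ≤ ∏ a ∈ Finset.range (k+1), ∏ b ∈ Finset.range (w+1), (k^2 + w^2) := by
        apply Finset.prod_le_prod'
        intro a ha
        apply Finset.prod_le_prod'
        intro b hb
        have ha' : a ≤ k := Nat.lt_succ_iff.mp (Finset.mem_range.mp ha)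
        have hb' : b ≤ w := Nat.lt_succ_iff.mp (Finset.mem_range.mp hb)
        split_ifs with h
        · have : 1 ≤ k^2 := Nat.one_le_pow _ _ hk
          omega
        · have h1 : a^2 ≤ k^2 := Nat.pow_le_pow_left ha' 2
          have h2 : b^2 ≤ w^2 := Nat.pow_le_pow_left hb' 2
          omega
    _ = (k^2 + w^2) ^ ((k+1) * (w+1)) := by
        simp only [Finset.prod_const, Finset.card_range]
        rw [← pow_mul, mul_comm]

/-- `w^2 ∣ slabF k w` for `w ≥ 1`, hence `w^2 ≤ slabF k w`. -/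
lemma sq_le_slabF (k w : ℕ) (hw : 1 ≤ w) : w^2 ≤ slabF k w := by
  have h : 0^2 + w^2 ∣ slabF k w := dvd_slabF (Nat.zero_le k) le_rfl (by omega)
  have h' : w^2 ∣ slabF k w := by simpa using h
  exact Nat.le_of_dvd (slabF_pos k w) h'

/-- a product of two non-units is not prime -/
lemma not_prime_mul_of_not_isUnit {x y : GaussianInt} (hx : ¬ IsUnit x) (hy : ¬ IsUnit y) :
    ¬ Prime (x * y) := by
  intro hp
  rcases hp.irreducible.isUnit_or_isUnit rfl with h | h
  · exact hx h
  · exact hy h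

lemma isUnit_iff_norm_eq_one (x : GaussianInt) : IsUnit x ↔ x.norm = 1 :=
  (Zsqrtd.norm_eq_one_iff' (by norm_num) x).symm

lemma not_isUnit_of_norm_ne_one {x : GaussianInt} (h : x.re^2 + x.im^2 ≠ 1) : ¬ IsUnit x := by
  rw [isUnit_iff_norm_eq_one, Zsqrtd.norm_def]
  intro h'
  apply h
  linarith

lemma not_isUnit_of_two_le_re {x : GaussianInt} (h : 2 ≤ |x.re|) : ¬ IsUnit x := by
  apply not_isUnit_of_norm_ne_one
  have h1 : 4 ≤ x.re^2 := by
    have := abs_nonneg x.re
    rw [← sq_abs]; nlinarith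
  nlinarith [sq_nonneg x.im]

lemma not_isUnit_of_two_le_im {x : GaussianInt} (h : 2 ≤ |x.im|) : ¬ IsUnit x := by
  apply not_isUnit_of_norm_ne_one
  have h1 : 4 ≤ x.im^2 := by
    have := abs_nonneg x.im
    rw [← sq_abs]; nlinarith
  nlinarith [sq_nonneg x.re]

lemma mk_eq_mul_of {x y z : GaussianInt} (hre : z.re = x.re * y.re - x.im * y.im)
    (him : z.im = x.re * y.im + x.im * y.re) : z = x * y := by
  apply Zsqrtd.ext
  · rw [Zsqrtd.re_mul, hre]; ring
  · rw [Zsqrtd.im_mul, him]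

/-- The explicit composite slab: if `F = slabF k w ≥ 3`, then no Gaussian integer
`F^3 + a + b i` with `|a| ≤ k`, `|b| ≤ w` is prime. -/
theorem not_prime_slab (k w : ℕ) (hF : 3 ≤ slabF k w) (a b : ℤ) (ha : |a| ≤ k) (hb : |b| ≤ w) :
    ¬ Prime (⟨(slabF k w : ℤ)^3 + a, b⟩ : GaussianInt) := by
  have hF3 : (3 : ℤ) ≤ (slabF k w : ℤ) := by exact_mod_cast hF
  generalize hFdef : (slabF k w : ℤ) = F at hF3 ⊢
  have hnn : 0 ≤ a^2 + b^2 := by positivity
  rcases (by omega : a^2 + b^2 = 0 ∨ a^2 + b^2 = 1 ∨ 2 ≤ a^2 + b^2) with h0 | h1 | h2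
  · -- a = b = 0
    have ha0 : a = 0 := by nlinarith [sq_nonneg a, sq_nonneg b]
    have hb0 : b = 0 := by nlinarith [sq_nonneg a, sq_nonneg b]
    subst ha0; subst hb0
    have hfac : (⟨F^3 + 0, 0⟩ : GaussianInt) = (⟨F, 0⟩ : GaussianInt) * ⟨F^2, 0⟩ := by
      apply mk_eq_mul_of <;> simp <;> ring
    rw [hfac]
    apply not_prime_mul_of_not_isUnit
    · apply not_isUnit_of_two_le_re; simp only; rw [abs_of_nonneg (by linarith)]; linarith
    · apply not_isUnit_of_two_le_re; simp only; rw [abs_of_nonneg (by positivity)]; nlinarith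
  · -- (a, b) is a unit
    have ha1 : -1 ≤ a ∧ a ≤ 1 := by constructor <;> nlinarith [sq_nonneg a, sq_nonneg b]
    have hb1 : -1 ≤ b ∧ b ≤ 1 := by constructor <;> nlinarith [sq_nonneg a, sq_nonneg b]
    obtain ⟨ha1, ha2⟩ := ha1
    obtain ⟨hb1, hb2⟩ := hb1
    have hcases : (a = 1 ∧ b = 0) ∨ (a = -1 ∧ b = 0) ∨ (a = 0 ∧ b = 1) ∨ (a = 0 ∧ b = -1) := by
      interval_cases a <;> interval_cases b <;> simp_all
    rcases hcases with ⟨rfl, rfl⟩ | ⟨rfl, rfl⟩ | ⟨rfl, rfl⟩ | ⟨rfl, rfl⟩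
    · have hfac : (⟨F^3 + 1, 0⟩ : GaussianInt) = (⟨F + 1, 0⟩ : GaussianInt) * ⟨F^2 - F + 1, 0⟩ := by
        apply mk_eq_mul_of <;> simp <;> ring
      rw [hfac]
      apply not_prime_mul_of_not_isUnit
      · apply not_isUnit_of_two_le_re; simp only; rw [abs_of_nonneg (by linarith)]; linarith
      · apply not_isUnit_of_two_le_re; simp only; rw [abs_of_nonneg (by nlinarith)]; nlinarith
    · have hfac : (⟨F^3 + -1, 0⟩ : GaussianInt) = (⟨F - 1, 0⟩ : GaussianInt) * ⟨F^2 + F + 1, 0⟩ := by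
        apply mk_eq_mul_of <;> simp <;> ring
      rw [hfac]
      apply not_prime_mul_of_not_isUnit
      · apply not_isUnit_of_two_le_re; simp only; rw [abs_of_nonneg (by linarith)]; linarith
      · apply not_isUnit_of_two_le_re; simp only; rw [abs_of_nonneg (by nlinarith)]; nlinarith
    · have hfac : (⟨F^3 + 0, 1⟩ : GaussianInt) = (⟨F, -1⟩ : GaussianInt) * ⟨F^2 - 1, F⟩ := by
        apply mk_eq_mul_of <;> simp <;> ring
      rw [hfac]
      apply not_prime_mul_of_not_isUnit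
      · apply not_isUnit_of_two_le_re; simp only; rw [abs_of_nonneg (by linarith)]; linarith
      · apply not_isUnit_of_two_le_im; simp only; rw [abs_of_nonneg (by linarith)]; linarith
    · have hfac : (⟨F^3 + 0, -1⟩ : GaussianInt) = (⟨F, 1⟩ : GaussianInt) * ⟨F^2 - 1, -F⟩ := by
        apply mk_eq_mul_of <;> simp <;> ring
      rw [hfac]
      apply not_prime_mul_of_not_isUnit
      · apply not_isUnit_of_two_le_re; simp only; rw [abs_of_nonneg (by linarith)]; linarith
      · apply not_isUnit_of_two_le_im; simp only; rw [abs_neg, abs_of_nonneg (by linarith)]; linarith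
  · -- generic case: a + b i divides F
    have hane : ¬ (a.natAbs = 0 ∧ b.natAbs = 0) := by
      rintro ⟨h1, h2'⟩
      have ha0 : a = 0 := Int.natAbs_eq_zero.mp h1
      have hb0 : b = 0 := Int.natAbs_eq_zero.mp h2'
      subst ha0; subst hb0
      norm_num at h2
    have hak : a.natAbs ≤ k := by
      have : (a.natAbs : ℤ) ≤ k := by rw [Int.natCast_natAbs]; exact ha
      exact_mod_cast this
    have hbw : b.natAbs ≤ w := by
      have : (b.natAbs : ℤ) ≤ w := by rw [Int.natCast_natAbs]; exact hb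
      exact_mod_cast this
    obtain ⟨q, hq⟩ := dvd_slabF hak hbw hane
    have hqZ : F = (a^2 + b^2) * (q : ℤ) := by
      have : ((slabF k w : ℕ) : ℤ) = (((a.natAbs^2 + b.natAbs^2) * q : ℕ) : ℤ) := by rw [hq]
      rw [← hFdef, this]
      push_cast
      rw [sq_abs, sq_abs]
    have hqpos : (1 : ℤ) ≤ q := by
      rcases Nat.eq_zero_or_pos q with h | h
      · rw [h] at hqZ; simp at hqZ; omega
      · exact_mod_cast h
    obtain ⟨t, ht⟩ : ∃ t : ℤ, t = (q : ℤ) * F^2 := ⟨_, rfl⟩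
    have ht9 : 9 ≤ t := by nlinarith
    have hfac : (⟨F^3 + a, b⟩ : GaussianInt) = (⟨a, b⟩ : GaussianInt) * ⟨a * t + 1, -(b * t)⟩ := by
      apply mk_eq_mul_of
      · simp only
        have : F^3 = (a^2 + b^2) * t := by
          rw [ht, ← mul_assoc, ← hqZ]; ring
        rw [this]; ring
      · simp only
        ring
    rw [hfac]
    apply not_prime_mul_of_not_isUnit
    · apply not_isUnit_of_norm_ne_one; simp only; omega
    · by_cases hb0 : b = 0
      · subst hb0
        have ha0 : a ≠ 0 := by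
          rintro rfl
          norm_num at h2
        apply not_isUnit_of_two_le_re
        simp only
        rcases lt_or_gt_of_ne ha0 with hneg | hpos
        · have h3 : a * t ≤ -9 := by nlinarith
          rw [abs_of_nonpos (by linarith)]; linarith
        · have h3 : 9 ≤ a * t := by nlinarith
          rw [abs_of_nonneg (by linarith)]; linarith
      · apply not_isUnit_of_two_le_im
        simp only
        rw [abs_neg, abs_mul]
        have h3 : 1 ≤ |b| := Int.one_le_abs hb0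
        have h4 : 9 ≤ |t| := by rw [abs_of_nonneg (by linarith)]; exact ht9
        nlinarith

/-- Symmetric form: every Gaussian integer whose larger coordinate (in absolute value) lies in
`[F^3 - k, F^3]` and whose smaller coordinate is at most `w` in absolute value is not prime. -/
theorem not_prime_of_max_min (k w : ℕ) (hF : 3 ≤ slabF k w) (z : GaussianInt)
    (h1 : (slabF k w : ℤ)^3 - k ≤ max |z.re| |z.im|)
    (h2 : max |z.re| |z.im| ≤ (slabF k w : ℤ)^3)
    (h3 : min |z.re| |z.im| ≤ w) : ¬ Prime z := by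
  by_cases hcase : |z.im| ≤ |z.re|
  · rw [max_eq_left hcase] at h1 h2
    rw [min_eq_right hcase] at h3
    by_cases hs : 0 ≤ z.re
    · rw [abs_of_nonneg hs] at h1 h2
      have key := not_prime_slab k w hF (z.re - (slabF k w : ℤ)^3) z.im
        (abs_le.mpr ⟨by linarith, by linarith⟩) h3
      have e : (⟨(slabF k w : ℤ)^3 + (z.re - (slabF k w : ℤ)^3), z.im⟩ : GaussianInt) = z := by
        apply Zsqrtd.ext <;> simp
      rwa [e] at key
    · have hs' : z.re < 0 := not_le.mp hs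
      rw [abs_of_neg hs'] at h1 h2
      have key := not_prime_slab k w hF (-z.re - (slabF k w : ℤ)^3) (-z.im)
        (abs_le.mpr ⟨by linarith, by linarith⟩) (by rwa [abs_neg])
      have e : (⟨(slabF k w : ℤ)^3 + (-z.re - (slabF k w : ℤ)^3), -z.im⟩ : GaussianInt) = -z := by
        apply Zsqrtd.ext <;> simp
      rw [e] at key
      intro hp
      exact key hp.neg
  · have hcase' : |z.re| ≤ |z.im| := le_of_lt (not_le.mp hcase)
    rw [max_eq_right hcase'] at h1 h2
    rw [min_eq_left hcase'] at h3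
    by_cases hs : 0 ≤ z.im
    · rw [abs_of_nonneg hs] at h1 h2
      have key := not_prime_slab k w hF (z.im - (slabF k w : ℤ)^3) (-z.re)
        (abs_le.mpr ⟨by linarith, by linarith⟩) (by rwa [abs_neg])
      have hu : IsUnit (⟨0, -1⟩ : GaussianInt) := by
        rw [isUnit_iff_norm_eq_one, Zsqrtd.norm_def]; norm_num
      have e : (⟨(slabF k w : ℤ)^3 + (z.im - (slabF k w : ℤ)^3), -z.re⟩ : GaussianInt)
          = (⟨0, -1⟩ : GaussianInt) * z := by
        apply Zsqrtd.ext <;> simp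
      rw [e] at key
      intro hp
      exact key ((prime_isUnit_mul hu).mpr hp)
    · have hs' : z.im < 0 := not_le.mp hs
      rw [abs_of_neg hs'] at h1 h2
      have key := not_prime_slab k w hF (-z.im - (slabF k w : ℤ)^3) z.re
        (abs_le.mpr ⟨by linarith, by linarith⟩) h3
      have hu : IsUnit (⟨0, 1⟩ : GaussianInt) := by
        rw [isUnit_iff_norm_eq_one, Zsqrtd.norm_def]; norm_num
      have e : (⟨(slabF k w : ℤ)^3 + (-z.im - (slabF k w : ℤ)^3), z.re⟩ : GaussianInt)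
          = (⟨0, 1⟩ : GaussianInt) * z := by
        apply Zsqrtd.ext <;> simp
      rw [e] at key
      intro hp
      exact key ((prime_isUnit_mul hu).mpr hp)

/-- The size estimate: in the logarithmic band, points whose larger coordinate is at most
`F^3` have smaller coordinate at most `w`. -/
theorem band_bound (D : ℝ) (hD : 1 ≤ D) (k w : ℕ) (hkD : (k : ℝ) ≤ D + 1) (hk1 : 1 ≤ k)
    (hkw : k ≤ w) (hw : 2 ≤ w) (m M : ℤ) (hm : 0 ≤ m) (hM0 : 0 ≤ M)
    (hM : M ≤ (slabF k w : ℤ)^3)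
    (h : 30 * D * (m : ℝ) * Real.log ((m : ℝ) + 2) ≤ Real.log ((M : ℝ) + 2)) :
    m ≤ w := by
  by_contra hcon
  have hmw : (w : ℤ) + 1 ≤ m := by omega
  have hmwR : (w : ℝ) + 1 ≤ (m : ℝ) := by exact_mod_cast hmw
  have hwR : (2 : ℝ) ≤ (w : ℝ) := by exact_mod_cast hw
  set L : ℝ := Real.log ((w : ℝ) + 3) with hL
  have hLpos : 0 < L := Real.log_pos (by linarith)
  have hL2 : Real.log 2 ≤ L := Real.log_le_log (by norm_num) (by linarith)
  -- lower bound for the left side
  have hlog_m : L ≤ Real.log ((m : ℝ) + 2) := Real.log_le_log (by linarith) (by linarith)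
  have hlow : 30 * D * ((w : ℝ) + 1) * L ≤ 30 * D * (m : ℝ) * Real.log ((m : ℝ) + 2) := by
    have h1 : 0 ≤ 30 * D := by linarith
    have h2 : ((w : ℝ) + 1) * L ≤ (m : ℝ) * Real.log ((m : ℝ) + 2) :=
      mul_le_mul hmwR hlog_m hLpos.le (by linarith)
    calc 30 * D * ((w : ℝ) + 1) * L = 30 * D * (((w : ℝ) + 1) * L) := by ring
      _ ≤ 30 * D * ((m : ℝ) * Real.log ((m : ℝ) + 2)) := mul_le_mul_of_nonneg_left h2 h1
      _ = 30 * D * (m : ℝ) * Real.log ((m : ℝ) + 2) := by ring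
  -- upper bound for the right side
  have hFnat : slabF k w ≤ (w + 3) ^ (3 * ((k+1) * (w+1))) := by
    calc slabF k w ≤ (k^2 + w^2) ^ ((k+1) * (w+1)) := slabF_le k w hk1
      _ ≤ ((w+3)^3) ^ ((k+1) * (w+1)) := by
          apply Nat.pow_le_pow_left
          have : k^2 ≤ w^2 := Nat.pow_le_pow_left hkw 2
          nlinarith
      _ = (w + 3) ^ (3 * ((k+1) * (w+1))) := by rw [← pow_mul]
  have hFpos : 0 < slabF k w := slabF_pos k w
  have hF3 : 3 ≤ slabF k w := by
    have := sq_le_slabF k w (by omega)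
    nlinarith
  have hFR : (slabF k w : ℝ) ≤ ((w : ℝ) + 3) ^ (3 * ((k+1) * (w+1))) := by
    exact_mod_cast hFnat
  have hFRpos : (0 : ℝ) < (slabF k w : ℝ) := by exact_mod_cast hFpos
  have hFR3 : (3 : ℝ) ≤ (slabF k w : ℝ) := by exact_mod_cast hF3
  have hlogF : Real.log (slabF k w : ℝ) ≤ (3 * ((k+1) * (w+1)) : ℕ) * L := by
    have := Real.log_le_log hFRpos hFR
    rwa [Real.log_pow] at this
  have hMR : (M : ℝ) ≤ (slabF k w : ℝ)^3 := by exact_mod_cast hM
  have hM0R : (0 : ℝ) ≤ (M : ℝ) := by exact_mod_cast hM0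
  have hup1 : Real.log ((M : ℝ) + 2) ≤ Real.log (2 * (slabF k w : ℝ)^3) := by
    apply Real.log_le_log (by linarith)
    have : (27 : ℝ) ≤ (slabF k w : ℝ)^3 := by nlinarith [sq_nonneg ((slabF k w : ℝ) - 3)]
    linarith
  have hup2 : Real.log (2 * (slabF k w : ℝ)^3) = Real.log 2 + 3 * Real.log (slabF k w : ℝ) := by
    rw [Real.log_mul (by norm_num) (by positivity), Real.log_pow]; norm_num
  have hk3 : (k : ℝ) + 1 ≤ 3 * D := by linarith
  have hup3 : 3 * Real.log (slabF k w : ℝ) ≤ 27 * D * ((w : ℝ) + 1) * L := by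
    have e : ((3 * ((k+1) * (w+1)) : ℕ) : ℝ) = 3 * (((k : ℝ) + 1) * ((w : ℝ) + 1)) := by
      push_cast; ring
    rw [e] at hlogF
    have h5 : ((k : ℝ) + 1) * (((w : ℝ) + 1) * L) ≤ 3 * D * (((w : ℝ) + 1) * L) :=
      mul_le_mul_of_nonneg_right hk3 (by positivity)
    nlinarith
  have hup4 : Real.log 2 ≤ D * ((w : ℝ) + 1) * L := by
    have : L ≤ D * ((w : ℝ) + 1) * L := by
      have h6 : 1 ≤ D * ((w : ℝ) + 1) := by nlinarith
      nlinarith
    linarith
  have hpos : 0 < D * ((w : ℝ) + 1) * L := by positivity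
  linarith

end Vale.Agent.Lib.P015
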