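import Vale.Agent.Lib.P015.PrimeSums

/-!
# Mertens-type estimates for primes congruent to one modulo four
-/

namespace Vale.Agent.Lib.P015

open Finset ArithmeticFunction

lemma Ap_eq_sum_filter (N : ℕ) :
    Ap N = ∑ p ∈ (Ioc 0 N).filter Nat.Prime, if p % 4 = 1 then Real.log p / (p : ℝ) else 0 := by
  unfold Ap
  rw [Finset.sum_filter]
  apply Finset.sum_congr rfl
  intro n _
  by_cases hp : n.Prime
  · simp [hp]
  · simp [hp]

lemma Ap_le (N : ℕ) : Ap N ≤ (Mp N + Tp N) / 2 := by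
  rw [Ap_eq_sum_filter]
  unfold Mp Tp
  rw [← Finset.sum_add_distrib, Finset.sum_div]
  apply Finset.sum_le_sum
  intro p hp
  rw [Finset.mem_filter, Finset.mem_Ioc] at hp
  have hp1 : (1 : ℝ) ≤ (p : ℝ) := by exact_mod_cast hp.2.one_le
  have hg : 0 ≤ Real.log p / (p : ℝ) := div_nonneg (Real.log_nonneg hp1) (by linarith)
  unfold chi4
  split_ifs <;> linarith

lemma Ap_ge (N : ℕ) : (Mp N + Tp N) / 2 - Real.log 2 / 4 ≤ Ap N := by
  rw [Ap_eq_sum_filter]
  unfold Mp Tp
  rw [← Finset.sum_add_distrib, Finset.sum_div]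
  have h2 : ∑ p ∈ (Ioc 0 N).filter Nat.Prime, (if p = 2 then Real.log 2 / 4 else 0)
      ≤ Real.log 2 / 4 := by
    rw [Finset.sum_ite_eq']
    have : 0 ≤ Real.log 2 / 4 := div_nonneg (Real.log_nonneg (by norm_num)) (by norm_num)
    split_ifs <;> linarith
  have h3 : ∑ p ∈ (Ioc 0 N).filter Nat.Prime,
      ((Real.log p / (p : ℝ) + chi4 p * (Real.log p / (p : ℝ))) / 2
        - (if p = 2 then Real.log 2 / 4 else 0))
      ≤ ∑ p ∈ (Ioc 0 N).filter Nat.Prime, if p % 4 = 1 then Real.log p / (p : ℝ) else 0 := by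
    apply Finset.sum_le_sum
    intro p hp
    rw [Finset.mem_filter, Finset.mem_Ioc] at hp
    have hp1 : (1 : ℝ) ≤ (p : ℝ) := by exact_mod_cast hp.2.one_le
    have hg : 0 ≤ Real.log p / (p : ℝ) := div_nonneg (Real.log_nonneg hp1) (by linarith)
    rcases hp.2.eq_two_or_odd with h | h
    · subst h
      have e1 : chi4 2 = 0 := chi4_even 1
      rw [e1]
      norm_num
      linarith
    · have hne : p ≠ 2 := by intro h2; rw [h2] at h; norm_num at h
      rw [if_neg hne]
      unfold chi4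
      have h13 : p % 4 = 1 ∨ p % 4 = 3 := by omega
      rcases h13 with h1 | h3
      · rw [if_pos h1, if_pos h1]; linarith
      · have hn1 : ¬ (p % 4 = 1) := by omega
        rw [if_neg hn1, if_neg hn1, if_pos h3]; linarith
  rw [Finset.sum_sub_distrib] at h3
  linarith

/-- the Mertens estimate for primes congruent to one modulo four -/
lemma Ap_bounds (N : ℕ) (hN : 1 ≤ N) : |Ap N - Real.log N / 2| ≤ 10 := by
  have h1 := Msum_ge N hN
  have h2 := Msum_le N hN
  have h3 := Msum_eq N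
  have h4 := E2_le N
  have h5 := E2_nonneg N
  have h6 := abs_le.mp (Tsum_abs_le N hN)
  have h7 := abs_le.mp (Tsum_sub_Tp N)
  have h8 := Ap_le N
  have h9 := Ap_ge N
  have h10 : Real.log 2 ≤ 1 := by
    have := Real.log_two_lt_d9
    linarith
  rw [abs_le]
  constructor <;> linarith

/-- `∑ 1 / p` over the primes `p ≤ N` with `p ≡ 1 (mod 4)` -/
noncomputable def Rp (N : ℕ) : ℝ :=
  ∑ n ∈ Ioc 0 N, if (n.Prime ∧ n % 4 = 1) then 1 / (n : ℝ) else 0

lemma Rp_two : Rp 2 = 0 := by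
  unfold Rp
  apply Finset.sum_eq_zero
  intro n hn
  rw [Finset.mem_Ioc] at hn
  have h : ¬ (n.Prime ∧ n % 4 = 1) := by
    rintro ⟨hp, h4⟩
    have : n = 1 ∨ n = 2 := by omega
    rcases this with rfl | rfl
    · exact Nat.not_prime_one hp
    · norm_num at h4
  rw [if_neg h]

lemma Ap_two : Ap 2 = 0 := by
  unfold Ap
  apply Finset.sum_eq_zero
  intro n hn
  rw [Finset.mem_Ioc] at hn
  have h : ¬ (n.Prime ∧ n % 4 = 1) := by
    rintro ⟨hp, h4⟩
    have : n = 1 ∨ n = 2 := by omega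
    rcases this with rfl | rfl
    · exact Nat.not_prime_one hp
    · norm_num at h4
  rw [if_neg h]

lemma loglog_step (y : ℕ) (hy : 2 ≤ y) :
    Real.log (Real.log ((y : ℝ) + 2)) - Real.log (Real.log ((y : ℝ) + 1))
      ≤ (Real.log ((y : ℝ) + 1) - Real.log y) / Real.log ((y : ℝ) + 1) := by
  have hy2 : (2 : ℝ) ≤ (y : ℝ) := by exact_mod_cast hy
  have hL1 : 0 < Real.log ((y : ℝ) + 1) := Real.log_pos (by linarith)
  have hL2 : 0 < Real.log ((y : ℝ) + 2) := Real.log_pos (by linarith)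
  have h1 : Real.log (Real.log ((y : ℝ) + 2)) - Real.log (Real.log ((y : ℝ) + 1))
      = Real.log (Real.log ((y : ℝ) + 2) / Real.log ((y : ℝ) + 1)) :=
    (Real.log_div hL2.ne' hL1.ne').symm
  have h2 := Real.log_le_sub_one_of_pos (div_pos hL2 hL1)
  have h3 : Real.log ((y : ℝ) + 2) / Real.log ((y : ℝ) + 1) - 1
      = (Real.log ((y : ℝ) + 2) - Real.log ((y : ℝ) + 1)) / Real.log ((y : ℝ) + 1) := by
    field_simp
  -- concavity
  have h4 : Real.log ((y : ℝ) + 2) + Real.log y ≤ 2 * Real.log ((y : ℝ) + 1) := by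
    rw [← Real.log_mul (by linarith) (by linarith)]
    have h5 : 2 * Real.log ((y : ℝ) + 1) = Real.log (((y : ℝ) + 1) ^ 2) := by
      rw [Real.log_pow]; norm_num
    rw [h5]
    apply Real.log_le_log (by nlinarith)
    nlinarith
  rw [h1]
  refine le_trans h2 ?_
  rw [h3]
  apply div_le_div_of_nonneg_right _ hL1.le
  linarith

/-- Abel summation by induction: a lower bound for `∑ 1/p` -/
lemma Rp_ge_aux (y : ℕ) (hy : 2 ≤ y) :
    (Ap y - Real.log y / 2 + 10) / Real.log y + Real.log (Real.log ((y : ℝ) + 1)) / 2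
      - 10 / Real.log 2 ≤ Rp y := by
  induction y, hy using Nat.le_induction with
  | base =>
    rw [Rp_two, Ap_two]
    have hl2 : 0 < Real.log 2 := Real.log_pos (by norm_num)
    have h1 : Real.log (Real.log 3) ≤ 1 := by
      have h3 : Real.log 3 ≤ 2 := by
        have := Real.log_le_sub_one_of_pos (by norm_num : (0 : ℝ) < 3)
        linarith
      have h4 : 0 < Real.log 3 := Real.log_pos (by norm_num)
      have := Real.log_le_sub_one_of_pos h4
      linarith
    have h2 : (0 - Real.log ((2 : ℕ) : ℝ) / 2 + 10) / Real.log ((2 : ℕ) : ℝ)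
        = 10 / Real.log 2 - 1 / 2 := by
      push_cast
      field_simp
      ring
    rw [h2]
    have h5 : (((2 : ℕ) : ℝ) + 1) = 3 := by norm_num
    rw [h5]
    linarith
  | succ y hy ih =>
    have hy2 : (2 : ℝ) ≤ (y : ℝ) := by exact_mod_cast hy
    have hL0 : 0 < Real.log (y : ℝ) := Real.log_pos (by linarith)
    have hL1 : 0 < Real.log ((y : ℝ) + 1) := Real.log_pos (by linarith)
    have hL01 : Real.log (y : ℝ) ≤ Real.log ((y : ℝ) + 1) :=
      Real.log_le_log (by linarith) (by linarith)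
    have hG : 0 ≤ Ap y - Real.log y / 2 + 10 := by
      have := abs_le.mp (Ap_bounds y (by omega))
      linarith [this.1]
    have hstep := loglog_step y hy
    -- the increments
    have hA : Ap (y + 1) = Ap y
        + (if ((y + 1).Prime ∧ (y + 1) % 4 = 1) then Real.log ((y + 1 : ℕ) : ℝ) / ((y + 1 : ℕ) : ℝ)
            else 0) := by
      unfold Ap
      rw [Finset.sum_Ioc_succ_top (Nat.zero_le y)]
    have hR : Rp (y + 1) = Rp y
        + (if ((y + 1).Prime ∧ (y + 1) % 4 = 1) then 1 / ((y + 1 : ℕ) : ℝ) else 0) := by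
      unfold Rp
      rw [Finset.sum_Ioc_succ_top (Nat.zero_le y)]
    rw [hA, hR]
    push_cast
    have hcast : ((y : ℝ) + 1 + 1) = (y : ℝ) + 2 := by ring
    rw [hcast]
    -- abbreviations
    obtain ⟨L0, hL0def⟩ : ∃ L0, L0 = Real.log (y : ℝ) := ⟨_, rfl⟩
    obtain ⟨L1, hL1def⟩ : ∃ L1, L1 = Real.log ((y : ℝ) + 1) := ⟨_, rfl⟩
    rw [← hL1def] at hstep hL01 hL1 ih ⊢
    rw [← hL0def] at hstep hL01 hL0 ih hG
    obtain ⟨G, hGdef⟩ : ∃ G, G = Ap y - L0 / 2 + 10 := ⟨_, rfl⟩
    have hAy : Ap y = G + L0 / 2 - 10 := by rw [hGdef]; ring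
    rw [← hGdef] at hG
    rw [hAy] at ih ⊢
    have hGL : G / L1 ≤ G / L0 := div_le_div_of_nonneg_left hG hL0 hL01
    have ih' : G / L0 + Real.log L1 / 2 - 10 / Real.log 2 ≤ Rp y := by
      have e : (G + L0 / 2 - 10 - L0 / 2 + 10) / L0 = G / L0 := by ring_nf
      rw [e] at ih
      exact ih
    by_cases hs : ((y + 1).Prime ∧ (y + 1) % 4 = 1)
    · rw [if_pos hs, if_pos hs]
      have e : (G + L0 / 2 - 10 + L1 / ((y : ℝ) + 1) - L1 / 2 + 10) / L1
          = G / L1 - (L1 - L0) / L1 / 2 + 1 / ((y : ℝ) + 1) := by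
        field_simp
        ring
      rw [e]
      linarith
    · rw [if_neg hs, if_neg hs]
      have e : (G + L0 / 2 - 10 + 0 - L1 / 2 + 10) / L1
          = G / L1 - (L1 - L0) / L1 / 2 := by
        field_simp
        ring
      rw [e]
      linarith

lemma Rp_ge (y : ℕ) (hy : 2 ≤ y) :
    Real.log (Real.log ((y : ℝ) + 1)) / 2 - 10 / Real.log 2 ≤ Rp y := by
  have h := Rp_ge_aux y hy
  have hy2 : (2 : ℝ) ≤ (y : ℝ) := by exact_mod_cast hy
  have hL0 : 0 < Real.log (y : ℝ) := Real.log_pos (by linarith)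
  have hG : 0 ≤ Ap y - Real.log y / 2 + 10 := by
    have := abs_le.mp (Ap_bounds y (by omega))
    linarith [this.1]
  have := div_nonneg hG hL0.le
  linarith

end Vale.Agent.Lib.P015
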