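import Vale.Agent.Lib.P015.Params

/-!
# No bounded-step walk on Gaussian primes inside a strip of logarithmic height
-/

namespace Vale.Agent.Lib.P015

/-- Core statement with the constant `1 / (2 K0)`. -/
theorem no_walk_in_strip (D : ℝ) (z : ℕ → GaussianInt)
    (hinj : Function.Injective z) (hirr : ∀ n, Irreducible (z n))
    (hstep : ∀ n, ‖GaussianInt.toComplex (z (n + 1)) - GaussianInt.toComplex (z n)‖ ≤ D)
    (hband : ∀ n, D * |((z n).im : ℝ)| ≤ 1 / (2 * K0) * Real.log (|((z n).re : ℝ)| + 2)) :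
    False := by
  have hD : 1 ≤ D := by
    have hne : z (0 + 1) ≠ z 0 := fun h => by
      have := hinj h
      omega
    exact le_trans (one_le_dist_of_ne hne) (hstep 0)
  have hK := K0_pos
  -- the integer step bound
  obtain ⟨k, hk⟩ : ∃ k : ℕ, k = ⌈D⌉₊ := ⟨_, rfl⟩
  have hkD : D ≤ (k : ℝ) := by rw [hk]; exact Nat.le_ceil D
  have hkD1 : (k : ℝ) ≤ 2 * D := by
    have : (k : ℝ) < D + 1 := by rw [hk]; exact Nat.ceil_lt_add_one (by linarith)
    linarith
  have hk1 : 1 ≤ k := by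
    have : (1 : ℝ) ≤ (k : ℝ) := le_trans hD hkD
    exact_mod_cast this
  -- the moat
  obtain ⟨w, c, hMc, hlog, hmoat⟩ := moat_params k (|(z 0).re|.toNat + 1) hk1
  have hz0 : |(z 0).re| < (c : ℤ) := by
    have h1 : (|(z 0).re|.toNat : ℤ) = |(z 0).re| := Int.toNat_of_nonneg (abs_nonneg _)
    have h2 : ((|(z 0).re|.toNat + 1 : ℕ) : ℤ) ≤ (c : ℤ) := by exact_mod_cast hMc
    push_cast at h2
    omega
  -- the walk reaches real part at least `c` in absolute value
  have hex : ∃ n, (c : ℤ) ≤ |(z n).re| := by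
    by_contra hcon
    simp only [not_exists, not_le] at hcon
    obtain ⟨R, hR⟩ : ∃ R : ℕ, R = ⌈1 / (2 * K0) * Real.log ((c : ℝ) + 2)⌉₊ := ⟨_, rfl⟩
    obtain ⟨n, hn⟩ := exists_max_abs_ge hinj (((c + R + 1 : ℕ) : ℤ))
    have h1 : |(z n).re| < (c : ℤ) := hcon n
    have h1R : |((z n).re : ℝ)| < (c : ℝ) := by
      have : ((|(z n).re| : ℤ) : ℝ) < ((c : ℤ) : ℝ) := by exact_mod_cast h1
      rwa [Int.cast_abs, Int.cast_natCast] at this
    have h2 : |((z n).im : ℝ)| ≤ (R : ℝ) := by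
      have h3 := hband n
      have h4 : Real.log (|((z n).re : ℝ)| + 2) ≤ Real.log ((c : ℝ) + 2) :=
        Real.log_le_log (by positivity) (by linarith)
      have h5 : 1 / (2 * K0) * Real.log (|((z n).re : ℝ)| + 2)
          ≤ 1 / (2 * K0) * Real.log ((c : ℝ) + 2) :=
        mul_le_mul_of_nonneg_left h4 (by positivity)
      have h6 : 1 / (2 * K0) * Real.log ((c : ℝ) + 2) ≤ (R : ℝ) := by
        rw [hR]; exact Nat.le_ceil _
      have h7 : |((z n).im : ℝ)| ≤ D * |((z n).im : ℝ)| := by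
        have := abs_nonneg ((z n).im : ℝ)
        nlinarith
      linarith
    have h2Z : |(z n).im| ≤ (R : ℤ) := by
      have : ((|(z n).im| : ℤ) : ℝ) ≤ ((R : ℤ) : ℝ) := by
        rw [Int.cast_abs, Int.cast_natCast]; exact h2
      exact_mod_cast this
    have h8 : max |(z n).re| |(z n).im| ≤ ((c + R : ℕ) : ℤ) := by
      push_cast
      apply max_le <;> omega
    push_cast at hn h8
    omega
  classical
  obtain ⟨n, hn⟩ : ∃ n, n = Nat.find hex := ⟨_, rfl⟩
  have hn1 : (c : ℤ) ≤ |(z n).re| := by rw [hn]; exact Nat.find_spec hex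
  have hn0 : n ≠ 0 := by
    rintro rfl
    omega
  obtain ⟨n', rfl⟩ := Nat.exists_eq_succ_of_ne_zero hn0
  have hn1' : (c : ℤ) ≤ |(z (n' + 1)).re| := hn1
  have hn' : |(z n').re| < (c : ℤ) := by
    have := Nat.find_min hex (m := n') (by rw [← hn]; exact Nat.lt_succ_self n')
    exact not_le.mp this
  have hn2 : |(z (n' + 1)).re| ≤ (c : ℤ) + k - 1 := by
    have h1 := abs_re_sub_le hkD (hstep n')
    have h2 := abs_sub_abs_le_abs_sub (z (n' + 1)).re (z n').re
    omega
  -- the height at the crossing point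
  have himR : |((z (n' + 1)).im : ℝ)| ≤ (w : ℝ) := by
    have h3 := hband (n' + 1)
    have hreR : |((z (n' + 1)).re : ℝ)| ≤ (c : ℝ) + k := by
      have : ((|(z (n' + 1)).re| : ℤ) : ℝ) ≤ (((c : ℤ) + k - 1 : ℤ) : ℝ) := by exact_mod_cast hn2
      rw [Int.cast_abs] at this
      push_cast at this
      linarith
    have h4 : Real.log (|((z (n' + 1)).re : ℝ)| + 2) ≤ Real.log ((c : ℝ) + k + 2) :=
      Real.log_le_log (by positivity) (by linarith)
    have h5 : 1 / (2 * K0) * Real.log (|((z (n' + 1)).re : ℝ)| + 2)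
        ≤ 1 / (2 * K0) * (K0 * k * w) :=
      mul_le_mul_of_nonneg_left (le_trans h4 hlog) (by positivity)
    have h6 : 1 / (2 * K0) * (K0 * k * w) = (k : ℝ) * (w : ℝ) / 2 := by
      field_simp
    rw [h6] at h5
    have hw0 : (0 : ℝ) ≤ (w : ℝ) := Nat.cast_nonneg w
    have h7 : (k : ℝ) * (w : ℝ) / 2 ≤ D * (w : ℝ) := by nlinarith
    have h8 : D * |((z (n' + 1)).im : ℝ)| ≤ D * (w : ℝ) := by linarith
    exact le_of_mul_le_mul_left h8 (by linarith)
  have him : |(z (n' + 1)).im| ≤ (w : ℤ) := by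
    have : ((|(z (n' + 1)).im| : ℤ) : ℝ) ≤ ((w : ℤ) : ℝ) := by
      rw [Int.cast_abs, Int.cast_natCast]; exact himR
    exact_mod_cast this
  -- the offset
  obtain ⟨a, ha⟩ : ∃ a : ℕ, a = (|(z (n' + 1)).re| - (c : ℤ)).toNat := ⟨_, rfl⟩
  have haZ : (a : ℤ) = |(z (n' + 1)).re| - (c : ℤ) := by
    rw [ha]; exact Int.toNat_of_nonneg (by omega)
  have hak : a ≤ k := by omega
  have hca : ((c + a : ℕ) : ℤ) = |(z (n' + 1)).re| := by push_cast; omega
  rcases le_or_gt 0 (z (n' + 1)).re with hpos | hneg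
  · have hz : z (n' + 1) = (⟨((c + a : ℕ) : ℤ), (z (n' + 1)).im⟩ : GaussianInt) := by
      apply Zsqrtd.ext
      · change (z (n' + 1)).re = ((c + a : ℕ) : ℤ)
        rw [hca, abs_of_nonneg hpos]
      · rfl
    have := hmoat a hak (z (n' + 1)).im him
    rw [← hz] at this
    exact this (hirr (n' + 1))
  · have hz : -z (n' + 1) = (⟨((c + a : ℕ) : ℤ), -(z (n' + 1)).im⟩ : GaussianInt) := by
      apply Zsqrtd.ext
      · change (-z (n' + 1)).re = ((c + a : ℕ) : ℤ)
        rw [hca, abs_of_neg hneg, Zsqrtd.re_neg]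
      · change (-z (n' + 1)).im = -(z (n' + 1)).im
        rw [Zsqrtd.im_neg]
    have := hmoat a hak (-(z (n' + 1)).im) (by rw [abs_neg]; exact him)
    rw [← hz] at this
    exact this ((Associated.refl (z (n' + 1))).neg_right.irreducible (hirr (n' + 1)))

end Vale.Agent.Lib.P015
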