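import Vale.Agent.Lib.P015.Mertens

/-!
# The twisted Mertens sum is bounded
-/

namespace Vale.Agent.Lib.P015

open Finset ArithmeticFunction

/-- `n ↦ χ₄(n) Λ(n) / n` as an arithmetic function -/
noncomputable def Farith : ArithmeticFunction ℝ :=
  ⟨fun n => chi4 n * (vonMangoldt n / (n : ℝ)), by simp [chi4_zero]⟩

/-- `n ↦ χ₄(n) / n` as an arithmetic function -/
noncomputable def Garith : ArithmeticFunction ℝ :=
  ⟨fun n => chi4 n * (1 / (n : ℝ)), by simp [chi4_zero]⟩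

lemma Farith_apply (n : ℕ) : Farith n = chi4 n * (vonMangoldt n / (n : ℝ)) := rfl

lemma Garith_apply (n : ℕ) : Garith n = chi4 n * (1 / (n : ℝ)) := rfl

lemma Farith_mul_Garith (n : ℕ) :
    (Farith * Garith) n = chi4 n * (Real.log n / (n : ℝ)) := by
  rw [ArithmeticFunction.mul_apply]
  rcases Nat.eq_zero_or_pos n with h0 | hpos
  · subst h0; simp [chi4_zero]
  have hterm : ∀ x ∈ n.divisorsAntidiagonal,
      Farith x.1 * Garith x.2 = chi4 n / (n : ℝ) * vonMangoldt x.1 := by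
    intro x hx
    rw [Nat.mem_divisorsAntidiagonal] at hx
    obtain ⟨hx1, hx2⟩ := hx
    have h1 : x.1 ≠ 0 := by
      intro h; rw [h, zero_mul] at hx1; exact hx2 hx1.symm
    have h2 : x.2 ≠ 0 := by
      intro h; rw [h, mul_zero] at hx1; exact hx2 hx1.symm
    have h1' : (x.1 : ℝ) ≠ 0 := by exact_mod_cast h1
    have h2' : (x.2 : ℝ) ≠ 0 := by exact_mod_cast h2
    rw [Farith_apply, Garith_apply, ← hx1, chi4_mul]
    push_cast
    field_simp
  rw [Finset.sum_congr rfl hterm, ← Finset.mul_sum,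
    Nat.sum_divisorsAntidiagonal (fun i _ => vonMangoldt i), vonMangoldt_sum]
  ring

/-- `S(N) = ∑_{d ≤ N} χ₄(d) Λ(d)/d · L(N/d)` -/
lemma Ssum_eq (N : ℕ) :
    Ssum N = ∑ d ∈ Ioc 0 N, chi4 d * (vonMangoldt d / (d : ℝ)) * Lsum (N / d) := by
  have h := sum_Ioc_mul_eq_sum_sum Farith Garith N
  unfold Ssum
  rw [Finset.sum_congr rfl (fun n _ => (Farith_mul_Garith n).symm), h]
  rfl

lemma Tsum_abs_le (N : ℕ) (hN : 1 ≤ N) : |Tsum N| ≤ 10 := by
  have hNR : (0 : ℝ) < (N : ℝ) := by exact_mod_cast hN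
  -- the difference `S - L T`
  have hdiff : Ssum N - Lsum N * Tsum N
      = ∑ d ∈ Ioc 0 N, chi4 d * (vonMangoldt d / (d : ℝ)) * (Lsum (N / d) - Lsum N) := by
    rw [Ssum_eq]
    unfold Tsum
    rw [Finset.mul_sum, ← Finset.sum_sub_distrib]
    exact Finset.sum_congr rfl fun d _ => by ring
  have hbound : |Ssum N - Lsum N * Tsum N| ≤ 6 := by
    rw [hdiff]
    refine le_trans (Finset.abs_sum_le_sum_abs _ _) ?_
    have hterm : ∀ d ∈ Ioc 0 N,
        |chi4 d * (vonMangoldt d / (d : ℝ)) * (Lsum (N / d) - Lsum N)|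
          ≤ vonMangoldt d / (N : ℝ) := by
      intro d hd
      rw [Finset.mem_Ioc] at hd
      have hd0 : (0 : ℝ) < (d : ℝ) := by exact_mod_cast hd.1
      have h1 : |Lsum (N / d) - Lsum N| ≤ 1 / (((N / d : ℕ) : ℝ) + 1) := by
        rw [abs_sub_comm]
        exact Lsum_tail (N / d) N (Nat.div_le_self N d)
      have h2 : 1 / (((N / d : ℕ) : ℝ) + 1) ≤ (d : ℝ) / (N : ℝ) := by
        have := Nat.lt_mul_div_succ N hd.1
        have h3 : (N : ℝ) < (d : ℝ) * (((N / d : ℕ) : ℝ) + 1) := by exact_mod_cast this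
        rw [div_le_div_iff₀ (by positivity) hNR]
        linarith
      have h4 : |chi4 d * (vonMangoldt d / (d : ℝ))| ≤ vonMangoldt d / (d : ℝ) := by
        rw [abs_mul, abs_of_nonneg (div_nonneg vonMangoldt_nonneg hd0.le)]
        calc |chi4 d| * (vonMangoldt d / (d : ℝ)) ≤ 1 * (vonMangoldt d / (d : ℝ)) :=
              mul_le_mul_of_nonneg_right (chi4_abs_le d) (div_nonneg vonMangoldt_nonneg hd0.le)
          _ = vonMangoldt d / (d : ℝ) := one_mul _
      rw [abs_mul]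
      calc |chi4 d * (vonMangoldt d / (d : ℝ))| * |Lsum (N / d) - Lsum N|
          ≤ (vonMangoldt d / (d : ℝ)) * ((d : ℝ) / (N : ℝ)) :=
            mul_le_mul h4 (le_trans h1 h2) (abs_nonneg _) (div_nonneg vonMangoldt_nonneg hd0.le)
        _ = vonMangoldt d / (N : ℝ) := by field_simp
    refine le_trans (Finset.sum_le_sum hterm) ?_
    rw [← Finset.sum_div, div_le_iff₀ hNR]
    exact sum_vonMangoldt_le N
  have hS := Ssum_abs_le N
  have hL := Lsum_ge N hN
  have hL1 := Lsum_le_one N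
  have h5 : |Lsum N * Tsum N| ≤ 20 / 3 := by
    have h6 : Lsum N * Tsum N = Ssum N - (Ssum N - Lsum N * Tsum N) := by ring
    rw [h6]
    have := abs_sub (Ssum N) (Ssum N - Lsum N * Tsum N)
    linarith
  rw [abs_mul, abs_of_nonneg (by linarith : (0 : ℝ) ≤ Lsum N)] at h5
  have h7 := abs_nonneg (Tsum N)
  nlinarith

end Vale.Agent.Lib.P015
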